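import Mathlib

/-!
P212, pairing: finite dimensional approximation of compact families, boxes, lower bounds.
-/

open Set Module

namespace VP212.Pair

variable {L : Type*} [NormedAddCommGroup L] [InnerProductSpace ℂ L]

theorem norm_sub_proj_le (E : Submodule ℂ L) [FiniteDimensional ℂ E] (v : L) {y : L} (hy : y ∈ E) :
    ‖v - E.starProjection v‖ ≤ ‖v - y‖ := by
  rw [Submodule.starProjection_minimal]
  exact ciInf_le ⟨0, by rintro _ ⟨x, rfl⟩; exact norm_nonneg _⟩ (⟨y, hy⟩ : E)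

theorem norm_sub_proj_mono {E E' : Submodule ℂ L} [FiniteDimensional ℂ E]
    [FiniteDimensional ℂ E'] (h : E ≤ E') (T : L →L[ℂ] L) :
    ‖T - E'.starProjection.comp T‖ ≤ ‖T - E.starProjection.comp T‖ := by
  refine ContinuousLinearMap.opNorm_le_bound _ (norm_nonneg _) fun v => ?_
  refine le_trans ?_ ((T - E.starProjection.comp T).le_opNorm v)
  simp only [_root_.sub_apply, ContinuousLinearMap.comp_apply]
  exact norm_sub_proj_le E' _ (h (Submodule.starProjection_apply_mem _ _))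

theorem exists_finrank_approx_one {T : L →L[ℂ] L} (hT : IsCompactOperator T) {ε : ℝ} (hε : 0 < ε) :
    ∃ E : Submodule ℂ L, ∃ _ : FiniteDimensional ℂ E, ‖T - E.starProjection.comp T‖ ≤ ε := by
  have hK := hT.isCompact_closure_image_closedBall (1 : ℝ)
  obtain ⟨t, -, htf, hcov⟩ := hK.finite_cover_balls hε
  have : FiniteDimensional ℂ (Submodule.span ℂ t) := FiniteDimensional.span_of_finite ℂ htf
  refine ⟨Submodule.span ℂ t, this, ContinuousLinearMap.opNorm_le_of_unit_norm hε.le fun v hv => ?_⟩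
  simp only [_root_.sub_apply, ContinuousLinearMap.comp_apply]
  have hm : T v ∈ closure ((T : L →ₗ[ℂ] L) '' Metric.closedBall 0 1) :=
    subset_closure ⟨v, by simpa using hv.le, rfl⟩
  obtain ⟨y, hy, hyd⟩ := mem_iUnion₂.1 (hcov hm)
  refine (norm_sub_proj_le _ _ (Submodule.subset_span hy)).trans ?_
  rw [Metric.mem_ball, dist_eq_norm] at hyd
  exact hyd.le

/-- A compact set of compact operators is uniformly approximated in a finite dimensional space. -/
theorem exists_finrank_approx {K : Set (L →L[ℂ] L)} (hK : IsCompact K)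
    (hc : ∀ T ∈ K, IsCompactOperator T) {ε : ℝ} (hε : 0 < ε) :
    ∃ E : Submodule ℂ L, ∃ _ : FiniteDimensional ℂ E, ∀ T ∈ K,
      ‖T - E.starProjection.comp T‖ ≤ ε := by
  obtain ⟨t, htK, htf, hcov⟩ := hK.finite_cover_balls (show (0 : ℝ) < ε / 4 by positivity)
  have := htf.to_subtype
  choose E hE hEb using fun T : t =>
    exists_finrank_approx_one (hc T (htK T.2)) (show (0 : ℝ) < ε / 2 by positivity)
  refine ⟨⨆ T, E T, inferInstance, fun T hT => ?_⟩
  obtain ⟨S, hS, hSd⟩ := mem_iUnion₂.1 (hcov hT)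
  rw [Metric.mem_ball, dist_eq_norm] at hSd
  have h1 : ‖S - (⨆ T, E T).starProjection.comp S‖ ≤ ε / 2 :=
    (norm_sub_proj_mono (le_iSup E ⟨S, hS⟩) S).trans (hEb ⟨S, hS⟩)
  set P := (⨆ T, E T).starProjection
  have hP : ‖P.comp (S - T)‖ ≤ ‖T - S‖ := by
    rw [norm_sub_rev T S]
    exact (ContinuousLinearMap.opNorm_comp_le _ _).trans
      (mul_le_of_le_one_left (norm_nonneg _) (Submodule.starProjection_norm_le _))
  calc ‖T - P.comp T‖ = ‖(T - S) + (S - P.comp S) + P.comp (S - T)‖ := by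
        rw [ContinuousLinearMap.comp_sub]; congr 1; abel
    _ ≤ ‖T - S‖ + ‖S - P.comp S‖ + ‖P.comp (S - T)‖ := norm_add₃_le
    _ ≤ ε := by linarith

/-! ### Boxes -/

variable {G : Type*} [NormedAddCommGroup G] [InnerProductSpace ℂ G]
variable {N : Type} [Fintype N]

/-- Tuples with all coordinates in `Eb`. -/
def box (N : Type) [Fintype N] (Eb : Submodule ℂ G) : Submodule ℂ (PiLp 2 fun _ : N => G) where
  carrier := {v | ∀ n, v n ∈ Eb}
  add_mem' ha hb n := Eb.add_mem (ha n) (hb n)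
  zero_mem' _ := Eb.zero_mem
  smul_mem' c _ ha n := Eb.smul_mem c (ha n)

theorem mem_box {Eb : Submodule ℂ G} {v : PiLp 2 fun _ : N => G} :
    v ∈ box N Eb ↔ ∀ n, v n ∈ Eb := Iff.rfl

/-- A box is a power of its base. -/
noncomputable def boxEquiv (N : Type) [Fintype N] (Eb : Submodule ℂ G) :
    box N Eb ≃ₗ[ℂ] (N → Eb) where
  toFun v n := ⟨v.1 n, v.2 n⟩
  invFun f := ⟨WithLp.toLp 2 fun n => (f n : G), fun n => (f n).2⟩
  map_add' _ _ := rfl
  map_smul' _ _ := rfl
  left_inv _ := rfl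
  right_inv _ := rfl

instance box_finite (Eb : Submodule ℂ G) [FiniteDimensional ℂ Eb] :
    FiniteDimensional ℂ (box N Eb) := Module.Finite.equiv (boxEquiv N Eb).symm

theorem box_proj_apply (Eb : Submodule ℂ G) [FiniteDimensional ℂ Eb]
    (v : PiLp 2 fun _ : N => G) (n : N) :
    (box N Eb).starProjection v n = Eb.starProjection (v n) := by
  have h : (box N Eb).starProjection v = WithLp.toLp 2 fun n => Eb.starProjection (v n) := by
    refine Submodule.eq_starProjection_of_mem_of_inner_eq_zero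
      (fun m => Submodule.starProjection_apply_mem _ _) fun w hw => ?_
    rw [PiLp.inner_apply]
    refine Finset.sum_eq_zero fun m _ => ?_
    exact Submodule.starProjection_inner_eq_zero _ _ (hw m)
  rw [h]

theorem box_mono {E E' : Submodule ℂ G} (h : E ≤ E') : box N E ≤ box N E' :=
  fun _ hv n => h (hv n)

theorem exists_box_ge (E : Submodule ℂ (PiLp 2 fun _ : N => G)) [FiniteDimensional ℂ E] :
    ∃ Eb : Submodule ℂ G, ∃ _ : FiniteDimensional ℂ Eb, E ≤ box N Eb := by
  refine ⟨⨆ n, E.map ((PiLp.proj (𝕜 := ℂ) 2 (fun _ : N => G) n :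
    (PiLp 2 fun _ : N => G) →L[ℂ] G) : (PiLp 2 fun _ : N => G) →ₗ[ℂ] G), inferInstance,
    fun v hv n => Submodule.mem_iSup_of_mem n ⟨v, hv, rfl⟩⟩

theorem exists_box_approx {K : Set ((PiLp 2 fun _ : N => G) →L[ℂ] (PiLp 2 fun _ : N => G))}
    (hK : IsCompact K) (hc : ∀ T ∈ K, IsCompactOperator T) {ε : ℝ} (hε : 0 < ε) :
    ∃ Eb : Submodule ℂ G, ∃ _ : FiniteDimensional ℂ Eb, ∀ T ∈ K,
      ‖T - (box N Eb).starProjection.comp T‖ ≤ ε := by
  obtain ⟨E, hE, hEb⟩ := exists_finrank_approx hK hc hε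
  obtain ⟨Eb, hEbf, hle⟩ := exists_box_ge E
  exact ⟨Eb, hEbf, fun T hT => (norm_sub_proj_mono hle T).trans (hEb T hT)⟩

/-! ### Lower bounds -/

/-- `1 + T` is bounded below by `δ`. -/
def BddBelow' (δ : ℝ) (T : L →L[ℂ] L) : Prop := ∀ x, δ * ‖x‖ ≤ ‖x + T x‖

theorem bddBelow_of_inverse {T T' : L →L[ℂ] L} {C : ℝ} (h : T + T' + T'.comp T = 0)
    (hC : 1 + ‖T'‖ ≤ C) : BddBelow' C⁻¹ T := by
  intro x
  have hC0 : 0 < C := lt_of_lt_of_le (by linarith [norm_nonneg T']) hC
  have hx : x = (x + T x) + T' (x + T x) := by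
    have := congrArg (fun S : L →L[ℂ] L => S x) h
    simp only [_root_.add_apply, ContinuousLinearMap.comp_apply, _root_.zero_apply] at this
    rw [map_add]
    linear_combination (norm := module) -this
  rw [inv_mul_le_iff₀ hC0]
  calc ‖x‖ = ‖(x + T x) + T' (x + T x)‖ := congrArg _ hx
    _ ≤ ‖x + T x‖ + ‖T'‖ * ‖x + T x‖ := (norm_add_le _ _).trans (add_le_add le_rfl (T'.le_opNorm _))
    _ ≤ C * ‖x + T x‖ := by nlinarith [norm_nonneg (x + T x)]

theorem ne_zero_of_close {δ : ℝ} {T S : L →L[ℂ] L} (h : BddBelow' δ T) (hS : ‖T - S‖ < δ) {x : L}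
    (hx : x + S x = 0) : x = 0 := by
  by_contra hne
  have h1 := h x
  have h2 := (T - S).le_opNorm x
  rw [_root_.sub_apply] at h2
  have h3 : x + T x = T x - S x := by linear_combination (norm := module) hx
  rw [h3] at h1
  nlinarith [norm_pos_iff.2 hne]

end VP212.Pair
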