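import Mathlib

/-!
P212, pairing: determinants of compressions of `1 + T` to finite dimensional subspaces.
-/

open Module

namespace VP212.Pair

variable {L : Type*} [NormedAddCommGroup L] [InnerProductSpace ℂ L]

/-- `det (1 + B A) = det (1 + A B)` for linear maps. -/
theorem det_one_add_comp_comm {M N : Type*} [AddCommGroup M] [Module ℂ M] [FiniteDimensional ℂ M]
    [AddCommGroup N] [Module ℂ N] [FiniteDimensional ℂ N] (A : M →ₗ[ℂ] N) (B : N →ₗ[ℂ] M) :
    LinearMap.det (1 + B ∘ₗ A) = LinearMap.det (1 + A ∘ₗ B) := by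
  classical
  let b := Module.finBasis ℂ M
  let c := Module.finBasis ℂ N
  rw [← LinearMap.det_toMatrix b, ← LinearMap.det_toMatrix c, map_add, map_add,
    LinearMap.toMatrix_one, LinearMap.toMatrix_one, LinearMap.toMatrix_comp b c b,
    LinearMap.toMatrix_comp c b c, Matrix.det_one_add_mul_comm]

/-- The compression of `1 + T` to `E`. -/
noncomputable def compr (E : Submodule ℂ L) [FiniteDimensional ℂ E] (T : L →L[ℂ] L) : E →ₗ[ℂ] E :=
  1 + ((E.orthogonalProjectionOnto.comp (T.comp E.subtypeL)) : E →ₗ[ℂ] E)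

theorem coe_compr (E : Submodule ℂ L) [FiniteDimensional ℂ E] (T : L →L[ℂ] L) (x : E) :
    (compr E T x : L) = x + E.starProjection (T x) := rfl

/-- The determinant of the compression of `1 + T` to `E`. -/
noncomputable def Det (E : Submodule ℂ L) [FiniteDimensional ℂ E] (T : L →L[ℂ] L) : ℂ :=
  LinearMap.det (compr E T)

variable (E : Submodule ℂ L) [FiniteDimensional ℂ E]

theorem Det_congr {T S : L →L[ℂ] L}
    (h : ∀ x ∈ E, E.starProjection (T x) = E.starProjection (S x)) : Det E T = Det E S := by
  unfold Det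
  congr 1
  refine LinearMap.ext fun x => Subtype.ext ?_
  rw [coe_compr, coe_compr, h x x.2]

theorem Det_zero : Det E (0 : L →L[ℂ] L) = 1 := by
  unfold Det
  have : compr E (0 : L →L[ℂ] L) = 1 := by
    refine LinearMap.ext fun x => Subtype.ext ?_
    simp [coe_compr]
  rw [this, map_one]

theorem Det_proj (T : L →L[ℂ] L) : Det E (E.starProjection.comp T) = Det E T := by
  refine Det_congr E fun x _ => ?_
  exact Submodule.starProjection_eq_self_iff.2 (Submodule.starProjection_apply_mem _ _)

/-- Enlarging the subspace beyond one containing the range does not change the determinant. -/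
theorem Det_mono {E' : Submodule ℂ L} [FiniteDimensional ℂ E'] (h : E ≤ E') {T : L →L[ℂ] L}
    (hT : ∀ x, T x ∈ E) : Det E' T = Det E T := by
  let ι : E →ₗ[ℂ] E' := Submodule.inclusion h
  let r : E' →ₗ[ℂ] E := ((T : L →ₗ[ℂ] L).comp E'.subtype).codRestrict E fun x => hT x
  have h1 : compr E' T = 1 + ι ∘ₗ r := by
    refine LinearMap.ext fun x => Subtype.ext ?_
    rw [coe_compr, Submodule.starProjection_eq_self_iff.2 (h (hT _))]
    rfl
  have h2 : compr E T = 1 + r ∘ₗ ι := by
    refine LinearMap.ext fun x => Subtype.ext ?_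
    rw [coe_compr, Submodule.starProjection_eq_self_iff.2 (hT _)]
    rfl
  rw [Det, Det, h1, h2, det_one_add_comp_comm]

theorem Det_ne_zero {T : L →L[ℂ] L}
    (h : ∀ x ∈ E, x + E.starProjection (T x) = 0 → x = 0) : Det E T ≠ 0 := by
  refine ((LinearMap.isUnit_iff_ker_eq_bot (compr E T)).2 ?_).map LinearMap.det |>.ne_zero
  rw [LinearMap.ker_eq_bot']
  intro x hx
  exact Subtype.ext (h x x.2 (by rw [← coe_compr, hx]; rfl))

theorem continuous_Det : Continuous fun T : L →L[ℂ] L => Det E T := by
  classical
  let b := Module.finBasis ℂ E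
  simp only [Det, ← LinearMap.det_toMatrix b]
  refine Continuous.matrix_det (continuous_matrix fun i j => ?_)
  simp only [LinearMap.toMatrix_apply, compr, LinearMap.add_apply, map_add, Finsupp.coe_add,
    Pi.add_apply]
  refine continuous_const.add ?_
  exact ((b.coord i).continuous_of_finiteDimensional.comp (E.orthogonalProjectionOnto.continuous.comp
    (ContinuousLinearMap.apply ℂ L (b j : L)).continuous) : _)

theorem Det_mul {T S : L →L[ℂ] L} (hS : ∀ x ∈ E, S x ∈ E) :
    Det E (T + S + T.comp S) = Det E T * Det E S := by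
  unfold Det
  rw [← map_mul]
  congr 1
  refine LinearMap.ext fun x => Subtype.ext ?_
  rw [Module.End.mul_apply, coe_compr, coe_compr, coe_compr]
  have hs : E.starProjection (S x) = S x :=
    Submodule.starProjection_eq_self_iff.2 (hS x x.2)
  simp only [_root_.add_apply, ContinuousLinearMap.comp_apply, map_add, hs]
  abel

variable {L' : Type*} [NormedAddCommGroup L'] [InnerProductSpace ℂ L']

/-- Transport along a linear equivalence of the subspaces. -/
theorem Det_equiv {E' : Submodule ℂ L'} [FiniteDimensional ℂ E'] {T : L →L[ℂ] L} {T' : L' →L[ℂ] L'}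
    (e : E ≃ₗ[ℂ] E') (h : ∀ x : E, compr E' T' (e x) = e (compr E T x)) : Det E' T' = Det E T := by
  have : compr E' T' = (e : E →ₗ[ℂ] E') ∘ₗ compr E T ∘ₗ (e.symm : E' →ₗ[ℂ] E) := by
    refine LinearMap.ext fun y => ?_
    obtain ⟨x, rfl⟩ := e.surjective y
    simp [h]
  rw [Det, Det, this, LinearMap.det_conj]

end VP212.Pair
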