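import Vale.Agent.P212.Pair.Winding
import Vale.Agent.P212.Pair.Det
import Vale.Agent.P212.Pair.Approx

/-!
P212, pairing: the winding invariant modulo `Q` of a path of compact perturbations of `1`.
-/

open Set Module

namespace VP212.Pair

variable {Q : ℕ} {L : Type*} [NormedAddCommGroup L] [InnerProductSpace ℂ L]
  {B : Type*} [NormedAddCommGroup B] [InnerProductSpace ℂ B]

/-- A decomposition of `L` into `Q` copies of `B`. -/
abbrev Slots (Q : ℕ) (L B : Type*) [NormedAddCommGroup L] [InnerProductSpace ℂ L]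
    [NormedAddCommGroup B] [InnerProductSpace ℂ B] := L ≃ₗᵢ[ℂ] PiLp 2 (fun _ : Fin Q => B)

/-- `T` is a `Q`-fold copy of `c`. -/
def EndDiag (U : Slots Q L B) (T : L →L[ℂ] L) (c : B →L[ℂ] B) : Prop :=
  ∀ v q, U (T v) q = c (U v q)

/-- Vectors with all slots in `F`. -/
noncomputable def sbox (U : Slots Q L B) (F : Submodule ℂ B) : Submodule ℂ L :=
  (box (Fin Q) F).map U.symm.toLinearIsometry.toLinearMap

instance sbox_finite (U : Slots Q L B) (F : Submodule ℂ B) [FiniteDimensional ℂ F] :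
    FiniteDimensional ℂ (sbox U F) := by
  unfold sbox; infer_instance

theorem mem_sbox {U : Slots Q L B} {F : Submodule ℂ B} {v : L} :
    v ∈ sbox U F ↔ ∀ q, U v q ∈ F := by
  constructor
  · rintro ⟨w, hw, rfl⟩ q
    show U (U.symm w) q ∈ F
    rw [U.apply_symm_apply]
    exact hw q
  · exact fun h => ⟨U v, h, U.symm_apply_apply v⟩

theorem sbox_mono {U : Slots Q L B} {F F' : Submodule ℂ B} (h : F ≤ F') : sbox U F ≤ sbox U F' :=
  fun _ hv => mem_sbox.2 fun q => h (mem_sbox.1 hv q)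

theorem sbox_proj_apply (U : Slots Q L B) (F : Submodule ℂ B) [FiniteDimensional ℂ F] (v : L)
    (q : Fin Q) : U ((sbox U F).starProjection v) q = F.starProjection (U v q) := by
  have h := U.symm.toLinearIsometry.map_starProjection (box (Fin Q) F) (U v)
  have h2 : U.symm ((box (Fin Q) F).starProjection (U v)) = (sbox U F).starProjection v := by
    simpa [sbox] using h
  rw [← h2, U.apply_symm_apply, box_proj_apply]

theorem EndDiag.proj_comp {U : Slots Q L B} {T : L →L[ℂ] L} {c : B →L[ℂ] B}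
    (h : EndDiag U T c) (F : Submodule ℂ B) [FiniteDimensional ℂ F] :
    EndDiag U ((sbox U F).starProjection.comp T) (F.starProjection.comp c) := by
  intro v q
  rw [ContinuousLinearMap.comp_apply, ContinuousLinearMap.comp_apply, sbox_proj_apply, h]

theorem EndDiag.add {U : Slots Q L B} {T T' : L →L[ℂ] L} {c c' : B →L[ℂ] B}
    (h : EndDiag U T c) (h' : EndDiag U T' c') : EndDiag U (T + T') (c + c') := by
  intro v q
  simp only [_root_.add_apply, map_add, PiLp.add_apply, h v q, h' v q]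

theorem EndDiag.smul {U : Slots Q L B} {T : L →L[ℂ] L} {c : B →L[ℂ] B}
    (h : EndDiag U T c) (a : ℂ) : EndDiag U (a • T) (a • c) := by
  intro v q
  simp only [_root_.smul_apply, map_smul, PiLp.smul_apply, h v q]

theorem EndDiag.comp {U : Slots Q L B} {T T' : L →L[ℂ] L} {c c' : B →L[ℂ] B}
    (h : EndDiag U T c) (h' : EndDiag U T' c') : EndDiag U (T.comp T') (c.comp c') := by
  intro v q
  rw [ContinuousLinearMap.comp_apply, ContinuousLinearMap.comp_apply, h, h']

theorem Det_endDiag {U : Slots Q L B} (F : Submodule ℂ B) [FiniteDimensional ℂ F] {T : L →L[ℂ] L}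
    {c : B →L[ℂ] B} (h : EndDiag U T c) : Det (sbox U F) T = Det F c ^ Q := by
  let e : sbox U F ≃ₗ[ℂ] (Fin Q → F) :=
    { toFun := fun v q => ⟨U v.1 q, mem_sbox.1 v.2 q⟩
      invFun := fun f => ⟨U.symm (WithLp.toLp 2 fun q => (f q : B)),
        mem_sbox.2 fun q => by simpa using (f q).2⟩
      map_add' := fun x y => by funext q; apply Subtype.ext; simp
      map_smul' := fun a x => by funext q; apply Subtype.ext; simp
      left_inv := fun v => by apply Subtype.ext; simp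
      right_inv := fun f => by funext q; apply Subtype.ext; simp }
  have he : ∀ x q, ((e x q : F) : B) = U x.1 q := fun x q => rfl
  have hc : (e.toLinearMap) ∘ₗ compr (sbox U F) T ∘ₗ e.symm.toLinearMap =
      LinearMap.pi (fun q => (compr F c).comp (LinearMap.proj q)) := by
    refine LinearMap.ext fun f => funext fun q => Subtype.ext ?_
    have hq : ((f q : F) : B) = U (e.symm f).1 q := by
      rw [← he, e.apply_symm_apply]
    simp only [LinearMap.comp_apply, LinearEquiv.coe_coe, LinearMap.pi_apply, LinearMap.proj_apply]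
    rw [he, coe_compr, coe_compr, map_add, PiLp.add_apply, sbox_proj_apply, h, hq]
  rw [Det, ← LinearMap.det_conj (compr (sbox U F) T) e, hc, LinearMap.det_pi]
  simp [Det]

/-- A convex combination of two paths, as a function of two variables. -/
theorem continuousOn_combo {V : Type*} [NormedAddCommGroup V] [NormedSpace ℂ V] {f g : ℝ → V}
    (hf : ContinuousOn f (Icc 0 1)) (hg : ContinuousOn g (Icc 0 1)) :
    ContinuousOn (fun p : ℝ × ℝ => (1 - (p.1 : ℂ)) • f p.2 + (p.1 : ℂ) • g p.2)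
      (Icc 0 1 ×ˢ Icc 0 1) :=
  ((continuous_const.sub (Complex.continuous_ofReal.comp continuous_fst)).continuousOn.smul
      (hf.comp continuousOn_snd fun _ hp => hp.2)).add
    ((Complex.continuous_ofReal.comp continuous_fst).continuousOn.smul
      (hg.comp continuousOn_snd fun _ hp => hp.2))

/-- A segment of operators. -/
theorem continuous_seg {V : Type*} [NormedAddCommGroup V] [NormedSpace ℂ V] (a b : V) :
    Continuous fun s : ℝ => (1 - (s : ℂ)) • a + (s : ℂ) • b :=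
  ((continuous_const.sub Complex.continuous_ofReal).smul continuous_const).add
    (Complex.continuous_ofReal.smul continuous_const)

theorem norm_seg_sub_lt {V : Type*} [NormedAddCommGroup V] [NormedSpace ℂ V] {m a b : V} {δ s : ℝ}
    (hs : s ∈ Icc (0 : ℝ) 1) (ha : ‖m - a‖ < δ) (hb : ‖m - b‖ < δ) :
    ‖m - ((1 - (s : ℂ)) • a + (s : ℂ) • b)‖ < δ := by
  have e : m - ((1 - (s : ℂ)) • a + (s : ℂ) • b) =
      (1 - (s : ℂ)) • (m - a) + (s : ℂ) • (m - b) := by
    simp only [smul_sub, sub_smul, one_smul]; abel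
  rw [e]
  refine (norm_add_le _ _).trans_lt ?_
  rw [norm_smul, norm_smul, show (1 - (s : ℂ)) = ((1 - s : ℝ) : ℂ) by push_cast; ring,
    Complex.norm_real, Complex.norm_real, Real.norm_of_nonneg (sub_nonneg.2 hs.2),
    Real.norm_of_nonneg hs.1]
  have hM : max ‖m - a‖ ‖m - b‖ < δ := max_lt ha hb
  calc (1 - s) * ‖m - a‖ + s * ‖m - b‖
      ≤ (1 - s) * max ‖m - a‖ ‖m - b‖ + s * max ‖m - a‖ ‖m - b‖ :=
        add_le_add (mul_le_mul_of_nonneg_left (le_max_left _ _) (sub_nonneg.2 hs.2))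
          (mul_le_mul_of_nonneg_left (le_max_right _ _) hs.1)
    _ = max ‖m - a‖ ‖m - b‖ := by ring
    _ < δ := hM

/-- The data of a path. -/
structure IsPath (U : Slots Q L B) (k : ℝ → (L →L[ℂ] L)) (c : B →L[ℂ] B) : Prop where
  cont : ContinuousOn k (Icc 0 1)
  compact : ∀ t ∈ Icc (0 : ℝ) 1, IsCompactOperator (k t)
  bdd : ∃ δ > 0, ∀ t ∈ Icc (0 : ℝ) 1, BddBelow' δ (k t)
  start : k 0 = 0
  finish : EndDiag U (k 1) c

/-- The winding of a path seen in a box. -/
def WindIn (U : Slots Q L B) (F : Submodule ℂ B) [FiniteDimensional ℂ F]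
    (k : ℝ → (L →L[ℂ] L)) (c : B →L[ℂ] B) (z : ZMod Q) : Prop :=
  Wind Q (fun t => Det (sbox U F) (k t)) (Det F c) z

/-- The boxes that see a path. -/
def Good (U : Slots Q L B) (F : Submodule ℂ B) [FiniteDimensional ℂ F]
    (k : ℝ → (L →L[ℂ] L)) : Prop :=
  ∃ δ > 0, ∀ t ∈ Icc (0 : ℝ) 1, BddBelow' δ (k t) ∧
    ‖k t - (sbox U F).starProjection.comp (k t)‖ < δ

/-- The invariant of a path. -/
def HasInv (U : Slots Q L B) (k : ℝ → (L →L[ℂ] L)) (c : B →L[ℂ] B) (z : ZMod Q) : Prop :=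
  ∀ (F : Submodule ℂ B) (_ : FiniteDimensional ℂ F), Good U F k → WindIn U F k c z

variable {U : Slots Q L B}

theorem Good.inj {F : Submodule ℂ B} [FiniteDimensional ℂ F] {k : ℝ → (L →L[ℂ] L)}
    (h : Good U F k) {t : ℝ} (ht : t ∈ Icc (0 : ℝ) 1)
    {x : L} (hx : x + (sbox U F).starProjection (k t x) = 0) : x = 0 := by
  obtain ⟨δ, hδ, hb⟩ := h
  exact ne_zero_of_close (hb t ht).1 (hb t ht).2 hx

theorem Good.mono {F F' : Submodule ℂ B} [FiniteDimensional ℂ F] [FiniteDimensional ℂ F']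
    (hle : F ≤ F') {k : ℝ → (L →L[ℂ] L)} (hg : Good U F k) : Good U F' k := by
  obtain ⟨δ, hδ, hb⟩ := hg
  exact ⟨δ, hδ, fun t ht =>
    ⟨(hb t ht).1, (norm_sub_proj_mono (sbox_mono hle) (k t)).trans_lt (hb t ht).2⟩⟩

theorem exists_sbox_approx (U : Slots Q L B) {K : Set (L →L[ℂ] L)}
    (hK : IsCompact K) (hc : ∀ T ∈ K, IsCompactOperator T) {ε : ℝ} (hε : 0 < ε) :
    ∃ F : Submodule ℂ B, ∃ _ : FiniteDimensional ℂ F, ∀ T ∈ K,
      ‖T - (sbox U F).starProjection.comp T‖ ≤ ε := by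
  obtain ⟨E, hE, hEb⟩ := exists_finrank_approx hK hc hε
  obtain ⟨F, hF, hle⟩ := exists_box_ge (E.map U.toLinearIsometry.toLinearMap)
  refine ⟨F, hF, fun T hT => (norm_sub_proj_mono ?_ T).trans (hEb T hT)⟩
  exact fun v hv => mem_sbox.2 fun q => hle ⟨v, hv, rfl⟩ q

/-- A family of nondegenerate compressions keeps the winding. -/
theorem windIn_family (hQ : 0 < Q) (F : Submodule ℂ B) [FiniteDimensional ℂ F]
    {T : ℝ → ℝ → (L →L[ℂ] L)} {c : ℝ → (B →L[ℂ] B)}
    (hT : ContinuousOn (fun p : ℝ × ℝ => T p.1 p.2) (Icc 0 1 ×ˢ Icc 0 1))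
    (hc : ContinuousOn c (Icc 0 1)) (h0 : ∀ s ∈ Icc (0 : ℝ) 1, T s 0 = 0)
    (h1 : ∀ s ∈ Icc (0 : ℝ) 1, EndDiag U (T s 1) (c s))
    (hinj : ∀ s ∈ Icc (0 : ℝ) 1, ∀ t ∈ Icc (0 : ℝ) 1, ∀ x ∈ sbox U F,
      x + (sbox U F).starProjection (T s t x) = 0 → x = 0)
    {z : ZMod Q} (h : WindIn U F (T 0) (c 0) z) : WindIn U F (T 1) (c 1) z := by
  refine Wind.homotopy (F := fun s t => Det (sbox U F) (T s t))
    (d := fun s => Det F (c s)) ((continuous_Det _).comp_continuousOn hT)
    (fun s hs t ht => Det_ne_zero _ (hinj s hs t ht)) (fun s hs => ?_)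
    ((continuous_Det _).comp_continuousOn hc) (fun s hs hd => ?_)
    (fun s hs => Det_endDiag F (h1 s hs)) h
  · rw [h0 s hs, Det_zero]
  · have := Det_ne_zero _ (hinj s hs 1 ⟨zero_le_one, le_rfl⟩)
    rw [Det_endDiag F (h1 s hs), hd, zero_pow hQ.ne'] at this
    exact this rfl

/-- Enlarging a good box keeps the winding. -/
theorem windIn_mono (hQ : 0 < Q) {F F' : Submodule ℂ B} [FiniteDimensional ℂ F]
    [FiniteDimensional ℂ F'] (hle : F ≤ F') {k : ℝ → (L →L[ℂ] L)}
    {c : B →L[ℂ] B} (hk : IsPath U k c) (hg : Good U F k) {z : ZMod Q}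
    (h : WindIn U F k c z) : WindIn U F' k c z := by
  set P := (sbox U F).starProjection with hP
  set P' := (sbox U F').starProjection with hP'
  set Pb := F.starProjection
  set Pb' := F'.starProjection
  let T : ℝ → ℝ → (L →L[ℂ] L) := fun s t =>
    (1 - (s : ℂ)) • P.comp (k t) + (s : ℂ) • P'.comp (k t)
  let cs : ℝ → (B →L[ℂ] B) := fun s => (1 - (s : ℂ)) • Pb.comp c + (s : ℂ) • Pb'.comp c
  have h0 : WindIn U F' (T 0) (cs 0) z := by
    refine h.congr (fun t _ => ?_) ?_
    · have e : T 0 t = P.comp (k t) := by simp [T]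
      rw [e, Det_mono (sbox U F) (sbox_mono hle) (fun x => Submodule.starProjection_apply_mem _ (k t x))]
      exact (Det_proj _ _).symm
    · have e : cs 0 = Pb.comp c := by simp [cs]
      rw [e, Det_mono F hle (fun x => Submodule.starProjection_apply_mem _ (c x))]
      exact (Det_proj _ _).symm
  have hP1 : ContinuousOn (fun t => P.comp (k t)) (Icc 0 1) :=
    (continuousOn_const (c := P)).clm_comp hk.cont
  have hP2 : ContinuousOn (fun t => P'.comp (k t)) (Icc 0 1) :=
    (continuousOn_const (c := P')).clm_comp hk.cont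
  have hTc := continuousOn_combo hP1 hP2
  have hcs : ContinuousOn cs (Icc 0 1) := (continuous_seg (Pb.comp c) (Pb'.comp c)).continuousOn
  have h1 : WindIn U F' (T 1) (cs 1) z := by
    refine windIn_family hQ F' (T := T) (c := cs) hTc hcs (fun s _ => ?_) (fun s _ => ?_)
      (fun s hs t ht x _ hx => ?_) h0
    · simp [T, hk.start]
    · exact ((hk.finish.proj_comp F).smul _).add ((hk.finish.proj_comp F').smul _)
    · obtain ⟨δ, hδ, hb⟩ := hg
      refine ne_zero_of_close (S := T s t) (hb t ht).1 (norm_seg_sub_lt hs (hb t ht).2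
        ((norm_sub_proj_mono (sbox_mono hle) (k t)).trans_lt (hb t ht).2)) ?_
      have hm : T s t x ∈ sbox U F' := Submodule.add_mem _
        (Submodule.smul_mem _ _ (sbox_mono hle (Submodule.starProjection_apply_mem _ _)))
        (Submodule.smul_mem _ _ (Submodule.starProjection_apply_mem _ _))
      rwa [Submodule.starProjection_eq_self_iff.2 hm] at hx
  refine h1.congr (fun t _ => ?_) ?_
  · have e : T 1 t = P'.comp (k t) := by simp [T]
    rw [e, Det_proj]
  · have e : cs 1 = Pb'.comp c := by simp [cs]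
    rw [e, Det_proj]

theorem IsPath.exists_good {k : ℝ → (L →L[ℂ] L)} {c : B →L[ℂ] B}
    (hk : IsPath U k c) : ∃ F : Submodule ℂ B, ∃ _ : FiniteDimensional ℂ F, Good U F k := by
  obtain ⟨δ, hδ, hb⟩ := hk.bdd
  obtain ⟨F, hF, hFb⟩ := exists_sbox_approx U (isCompact_Icc.image_of_continuousOn hk.cont)
    (by rintro _ ⟨t, ht, rfl⟩; exact hk.compact t ht) (half_pos hδ)
  exact ⟨F, hF, δ, hδ, fun t ht => ⟨hb t ht, (hFb _ ⟨t, ht, rfl⟩).trans_lt (half_lt_self hδ)⟩⟩

theorem exists_windIn (hQ : 0 < Q) {k : ℝ → (L →L[ℂ] L)} {c : B →L[ℂ] B}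
    (hk : IsPath U k c) {F : Submodule ℂ B} [FiniteDimensional ℂ F] (hg : Good U F k) :
    ∃ z, WindIn U F k c z := by
  have hne : ∀ t ∈ Icc (0 : ℝ) 1, Det (sbox U F) (k t) ≠ 0 := fun t ht =>
    Det_ne_zero _ fun x _ hx => hg.inj ht hx
  refine exists_wind ((continuous_Det _).comp_continuousOn hk.cont) hne ?_
    (Det_endDiag F hk.finish) fun hd => hne 1 ⟨zero_le_one, le_rfl⟩ ?_
  · rw [hk.start, Det_zero]
  · rw [Det_endDiag F hk.finish, hd, zero_pow hQ.ne']

theorem IsPath.existsUnique_inv (hQ : 0 < Q) {k : ℝ → (L →L[ℂ] L)}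
    {c : B →L[ℂ] B} (hk : IsPath U k c) : ∃! z, HasInv U k c z := by
  obtain ⟨F, hF, hg⟩ := hk.exists_good
  obtain ⟨z, hz⟩ := exists_windIn hQ hk hg
  refine ⟨z, fun F' _ hg' => ?_, fun z' hz' => (hz' F hF hg).unique hz⟩
  obtain ⟨z', hz'⟩ := exists_windIn hQ hk hg'
  have h1 := windIn_mono hQ (le_sup_left : F ≤ F ⊔ F') hk hg hz
  have h2 := windIn_mono hQ (le_sup_right : F' ≤ F ⊔ F') hk hg' hz'
  rwa [h1.unique h2]

theorem HasInv.unique {k : ℝ → (L →L[ℂ] L)} {c : B →L[ℂ] B} (hk : IsPath U k c) {z w : ZMod Q}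
    (hz : HasInv U k c z) (hw : HasInv U k c w) : z = w := by
  obtain ⟨F, hF, hg⟩ := hk.exists_good
  exact (hz F hF hg).unique (hw F hF hg)

/-- One good box determines the invariant. -/
theorem hasInv_of_windIn (hQ : 0 < Q) {k : ℝ → (L →L[ℂ] L)}
    {c : B →L[ℂ] B} (hk : IsPath U k c) {F : Submodule ℂ B} [FiniteDimensional ℂ F]
    (hg : Good U F k) {z : ZMod Q} (hz : WindIn U F k c z) : HasInv U k c z := by
  obtain ⟨z', hz', -⟩ := hk.existsUnique_inv hQ
  rwa [hz.unique (hz' F inferInstance hg)]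

/-- The invariant only depends on the path on the interval. -/
theorem HasInv.congr {k k' : ℝ → (L →L[ℂ] L)} {c c' : B →L[ℂ] B} {z : ZMod Q}
    (h : HasInv U k c z) (hk : ∀ t ∈ Icc (0 : ℝ) 1, k t = k' t) (hc : c = c') :
    HasInv U k' c' z := by
  intro F hF hg
  subst hc
  refine (h F hF ?_).congr (fun t ht => by rw [hk t ht]) rfl
  obtain ⟨δ, hδ, hb⟩ := hg
  exact ⟨δ, hδ, fun t ht => by rw [hk t ht]; exact hb t ht⟩

/-- Homotopy invariance. -/
theorem hasInv_homotopy (hQ : 0 < Q) {k : ℝ → ℝ → (L →L[ℂ] L)} {c : ℝ → (B →L[ℂ] B)}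
    (hk : ContinuousOn (fun p : ℝ × ℝ => k p.1 p.2) (Icc 0 1 ×ˢ Icc 0 1))
    (hc : ContinuousOn c (Icc 0 1)) {δ : ℝ} (hδ : 0 < δ)
    (hkc : ∀ s ∈ Icc (0 : ℝ) 1, ∀ t ∈ Icc (0 : ℝ) 1,
      IsCompactOperator (k s t) ∧ BddBelow' δ (k s t))
    (h0 : ∀ s ∈ Icc (0 : ℝ) 1, k s 0 = 0) (h1 : ∀ s ∈ Icc (0 : ℝ) 1, EndDiag U (k s 1) (c s))
    {z : ZMod Q} (h : HasInv U (k 0) (c 0) z) : HasInv U (k 1) (c 1) z := by
  obtain ⟨F, hF, hFb⟩ := exists_sbox_approx U
    ((isCompact_Icc.prod isCompact_Icc).image_of_continuousOn hk)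
    (by rintro _ ⟨p, hp, rfl⟩; exact (hkc _ hp.1 _ hp.2).1) (half_pos hδ)
  have hgood : ∀ s ∈ Icc (0 : ℝ) 1, Good U F (k s) := fun s hs => ⟨δ, hδ, fun t ht =>
    ⟨(hkc s hs t ht).2, (hFb _ ⟨(s, t), ⟨hs, ht⟩, rfl⟩).trans_lt (half_lt_self hδ)⟩⟩
  have hw := windIn_family hQ F hk hc h0 h1 (fun s hs t ht x _ hx => (hgood s hs).inj ht hx)
    (h F hF (hgood 0 (left_mem_Icc.2 zero_le_one)))
  have hs1 : (1 : ℝ) ∈ Icc (0 : ℝ) 1 := right_mem_Icc.2 zero_le_one
  exact hasInv_of_windIn hQ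
    ⟨hk.comp (continuousOn_const.prodMk continuousOn_id) fun t ht => ⟨hs1, ht⟩,
      fun t ht => (hkc 1 hs1 t ht).1, ⟨δ, hδ, fun t ht => (hkc 1 hs1 t ht).2⟩, h0 1 hs1, h1 1 hs1⟩
    (hgood 1 hs1) hw

theorem hasInv_zero : HasInv U (fun _ => 0) 0 0 := by
  intro F _ _
  refine ⟨fun _ => 0, 0, 0, continuousOn_const, fun t _ => ?_, ?_, by simp, by simp⟩
  · simp [Det_zero]
  · simp [Det_zero]

/-- The invariant is additive on products. -/
theorem hasInv_mul (hQ : 0 < Q) {k l : ℝ → (L →L[ℂ] L)}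
    {c d : B →L[ℂ] B} (hk : IsPath U k c) (hl : IsPath U l d)
    (hp : IsPath U (fun t => k t + l t + (k t).comp (l t)) (c + d + c.comp d)) {z w : ZMod Q}
    (hz : HasInv U k c z) (hw : HasInv U l d w) :
    HasInv U (fun t => k t + l t + (k t).comp (l t)) (c + d + c.comp d) (z + w) := by
  obtain ⟨δk, hδk, hbk⟩ := hk.bdd
  obtain ⟨δl, hδl, hbl⟩ := hl.bdd
  obtain ⟨δ, hδ, hb⟩ := hp.bdd
  obtain ⟨K, hK⟩ := isCompact_Icc.exists_bound_of_continuousOn hk.cont
  obtain ⟨M, hM⟩ := isCompact_Icc.exists_bound_of_continuousOn hl.cont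
  have hK0 : 0 ≤ K := (norm_nonneg _).trans (hK 0 (left_mem_Icc.2 zero_le_one))
  have hM0 : 0 ≤ M := (norm_nonneg _).trans (hM 0 (left_mem_Icc.2 zero_le_one))
  set e := min δk (min δl (δ / (2 + K + M))) / 4 with he
  have he0 : 0 < e := by positivity
  obtain ⟨F, hF, hFb⟩ := exists_sbox_approx U
    (((isCompact_Icc.image_of_continuousOn hk.cont).union
      (isCompact_Icc.image_of_continuousOn hl.cont)).union (isCompact_Icc.image_of_continuousOn hp.cont))
    (by
      rintro _ ((⟨t, ht, rfl⟩ | ⟨t, ht, rfl⟩) | ⟨t, ht, rfl⟩)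
      exacts [hk.compact t ht, hl.compact t ht, hp.compact t ht]) he0
  have h4 : 4 * e = min δk (min δl (δ / (2 + K + M))) := by rw [he]; ring
  have b1 : 4 * e ≤ δk := h4.trans_le (min_le_left _ _)
  have b2 : 4 * e ≤ δl := h4.trans_le ((min_le_right _ _).trans (min_le_left _ _))
  have b3 : 4 * e * (2 + K + M) ≤ δ :=
    (le_div_iff₀ (by positivity)).1 (h4.trans_le ((min_le_right _ _).trans (min_le_right _ _)))
  have ek := fun t ht => hFb (k t) (Or.inl (Or.inl ⟨t, ht, rfl⟩))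
  have el := fun t ht => hFb (l t) (Or.inl (Or.inr ⟨t, ht, rfl⟩))
  have em := fun t ht => hFb (k t + l t + (k t).comp (l t)) (Or.inr ⟨t, ht, rfl⟩)
  have gk : Good U F k := ⟨δk, hδk, fun t ht => ⟨hbk t ht, (ek t ht).trans_lt (by linarith)⟩⟩
  have gl : Good U F l := ⟨δl, hδl, fun t ht => ⟨hbl t ht, (el t ht).trans_lt (by linarith)⟩⟩
  have gm : Good U F (fun t => k t + l t + (k t).comp (l t)) :=
    ⟨δ, hδ, fun t ht => ⟨hb t ht, (em t ht).trans_lt (by nlinarith)⟩⟩
  set P := (sbox U F).starProjection with hP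
  set Pb := F.starProjection
  let A : ℝ → (L →L[ℂ] L) := fun t => P.comp (k t) + P.comp (l t) + (P.comp (k t)).comp (P.comp (l t))
  let M' : ℝ → (L →L[ℂ] L) := fun t => P.comp (k t + l t + (k t).comp (l t))
  let a : B →L[ℂ] B := Pb.comp c + Pb.comp d + (Pb.comp c).comp (Pb.comp d)
  let m' : B →L[ℂ] B := Pb.comp (c + d + c.comp d)
  let T : ℝ → ℝ → (L →L[ℂ] L) := fun s t => (1 - (s : ℂ)) • A t + (s : ℂ) • M' t
  let cs : ℝ → (B →L[ℂ] B) := fun s => (1 - (s : ℂ)) • a + (s : ℂ) • m'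
  have hAdet : ∀ t, Det (sbox U F) (A t) = Det (sbox U F) (k t) * Det (sbox U F) (l t) := fun t => by
    rw [Det_mul _ (fun x _ => Submodule.starProjection_apply_mem _ (l t x)), Det_proj, Det_proj]
  have hadet : Det F a = Det F c * Det F d := by
    rw [Det_mul _ (fun x _ => Submodule.starProjection_apply_mem _ (d x)), Det_proj, Det_proj]
  have hT0 : WindIn U F (T 0) (cs 0) (z + w) := by
    refine ((hz F hF gk).mul (hw F hF gl)).congr (fun t _ => ?_) ?_
    · rw [show T 0 t = A t by simp [T], hAdet]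
    · rw [show cs 0 = a by simp [cs], hadet]
  have hT1 : WindIn U F (T 1) (cs 1) (z + w) := by
    refine windIn_family hQ F (T := T) (c := cs) (continuousOn_combo ?_ ?_)
      (continuous_seg _ _).continuousOn (fun s _ => ?_) (fun s _ => ?_)
      (fun s hs t ht x _ hx => ?_) hT0
    · exact ((continuousOn_const.clm_comp hk.cont).add (continuousOn_const.clm_comp hl.cont)).add
        ((continuousOn_const.clm_comp hk.cont).clm_comp (continuousOn_const.clm_comp hl.cont))
    · exact continuousOn_const.clm_comp hp.cont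
    · simp [T, A, M', hk.start, hl.start]
    · exact ((((hk.finish.proj_comp F).add (hl.finish.proj_comp F)).add
        ((hk.finish.proj_comp F).comp (hl.finish.proj_comp F))).smul _).add
          ((hp.finish.proj_comp F).smul _)
    · refine ne_zero_of_close (S := T s t) (hb t ht) (norm_seg_sub_lt hs ?_
        ((em t ht).trans_lt (by nlinarith))) ?_
      · set Pk := P.comp (k t) with hPk
        set Pl := P.comp (l t) with hPl
        show ‖k t + l t + (k t).comp (l t) - (Pk + Pl + Pk.comp Pl)‖ < δ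
        have e1 : k t + l t + (k t).comp (l t) - (Pk + Pl + Pk.comp Pl) =
            (k t - Pk) + (l t - Pl) + (k t - Pk).comp (l t) + Pk.comp (l t - Pl) := by
          simp only [ContinuousLinearMap.comp_sub, ContinuousLinearMap.sub_comp]; abel
        have hPk' : ‖Pk‖ ≤ K := ((ContinuousLinearMap.opNorm_comp_le _ _).trans
          (mul_le_of_le_one_left (norm_nonneg _) (Submodule.starProjection_norm_le _))).trans (hK t ht)
        have t1 : ‖k t - Pk‖ ≤ e := ek t ht
        have t2 : ‖l t - Pl‖ ≤ e := el t ht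
        have t3 : ‖(k t - Pk).comp (l t)‖ ≤ e * M := (ContinuousLinearMap.opNorm_comp_le _ _).trans
          (mul_le_mul t1 (hM t ht) (norm_nonneg _) he0.le)
        have t4 : ‖Pk.comp (l t - Pl)‖ ≤ K * e := (ContinuousLinearMap.opNorm_comp_le _ _).trans
          (mul_le_mul hPk' t2 (norm_nonneg _) hK0)
        rw [e1]
        calc _ ≤ ‖k t - Pk‖ + ‖l t - Pl‖ + ‖(k t - Pk).comp (l t)‖ + ‖Pk.comp (l t - Pl)‖ :=
              norm_add₄_le
          _ < δ := by nlinarith
      · have hm : T s t x ∈ sbox U F := Submodule.add_mem _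
          (Submodule.smul_mem _ _ (Submodule.add_mem _ (Submodule.add_mem _
            (Submodule.starProjection_apply_mem _ _) (Submodule.starProjection_apply_mem _ _))
            (Submodule.starProjection_apply_mem _ _)))
          (Submodule.smul_mem _ _ (Submodule.starProjection_apply_mem _ _))
        rwa [Submodule.starProjection_eq_self_iff.2 hm] at hx
  refine hasInv_of_windIn hQ hp gm (hT1.congr (fun t _ => ?_) ?_)
  · rw [show T 1 t = M' t by simp [T]]
    exact Det_proj _ _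
  · rw [show cs 1 = m' by simp [cs]]
    exact Det_proj _ _

end VP212.Pair
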