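import Vale.Agent.P212.Base.Pairing
import Vale.Agent.P212.Pair.Inv

/-!
P212, pairing: operator matrices and the decomposition of an amplified space into slots.
-/

namespace VP212.Pair

variable {ι : Type} [Fintype ι] {H H' H'' : Type} [NormedAddCommGroup H] [InnerProductSpace ℂ H]
  [NormedAddCommGroup H'] [InnerProductSpace ℂ H'] [NormedAddCommGroup H'']
  [InnerProductSpace ℂ H'']

theorem amplMat_apply (M : Matrix ι ι (H →L[ℂ] H')) (v : Ampl ι H) (i : ι) :
    amplMat M v i = ∑ j, M i j (v j) := by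
  simp [amplMat]

theorem amplMat_ext {T S : Ampl ι H →L[ℂ] Ampl ι H'} (h : ∀ v i, T v i = S v i) : T = S :=
  ContinuousLinearMap.ext fun v => PiLp.ext (h v)

theorem amplMat_add (M N : Matrix ι ι (H →L[ℂ] H')) :
    amplMat (M + N) = amplMat M + amplMat N :=
  amplMat_ext fun v i => by simp [amplMat_apply, Finset.sum_add_distrib]

theorem amplMat_sub (M N : Matrix ι ι (H →L[ℂ] H')) :
    amplMat (M - N) = amplMat M - amplMat N :=
  amplMat_ext fun v i => by simp [amplMat_apply, Finset.sum_sub_distrib]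

theorem amplMat_smul (c : ℂ) (M : Matrix ι ι (H →L[ℂ] H')) :
    amplMat (c • M) = c • amplMat M :=
  amplMat_ext fun v i => by simp [amplMat_apply, Finset.smul_sum]

theorem amplMat_zero : amplMat (0 : Matrix ι ι (H →L[ℂ] H')) = 0 :=
  amplMat_ext fun v i => by simp [amplMat_apply]

theorem amplMat_mul (M N : Matrix ι ι (H →L[ℂ] H)) : amplMat (M * N) = amplMat M * amplMat N :=
  amplMat_ext fun v i => by
    simp [amplMat_apply, Matrix.mul_apply, map_sum]
    exact Finset.sum_comm

/-- Entrywise identities give intertwining identities. -/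
theorem amplMat_comp_eq {K : Type} [NormedAddCommGroup K] [InnerProductSpace ℂ K]
    {M : Matrix ι ι (H →L[ℂ] H')} {N : Matrix ι ι (K →L[ℂ] H'')}
    {f : H →L[ℂ] K} {g : H' →L[ℂ] H''} (h : ∀ i j x, g (M i j x) = N i j (f x))
    (v : Ampl ι H) (i : ι) :
    g (amplMat M v i) = amplMat N (WithLp.toLp 2 fun j => f (v j)) i := by
  simp [amplMat_apply, map_sum, h]

theorem amplMat_eq_sum [DecidableEq ι] (M : Matrix ι ι (H →L[ℂ] H')) :
    amplMat M = ∑ i, ∑ j, ((PiLp.continuousLinearEquiv 2 ℂ (fun _ : ι => H')).symm.toContinuousLinearMap.comp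
      (ContinuousLinearMap.single ℂ (fun _ : ι => H') i)).comp
        ((M i j).comp (PiLp.proj 2 (fun _ : ι => H) j)) :=
  amplMat_ext fun v k => by
    simp [amplMat_apply, Pi.single_apply, Finset.sum_ite_eq]

theorem continuous_amplMat :
    Continuous fun M : Matrix ι ι (H →L[ℂ] H') => amplMat M := by
  classical
  simp only [amplMat_eq_sum]
  exact continuous_finsetSum _ fun i _ => continuous_finsetSum _ fun j _ =>
    continuous_const.clm_comp ((continuous_id.matrix_elem i j).clm_comp continuous_const)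

theorem isCompact_amplMat {M : Matrix ι ι (H →L[ℂ] H')}
    (h : ∀ i j, IsCompactOperator (M i j)) : IsCompactOperator (amplMat M) := by
  classical
  rw [amplMat_eq_sum]
  refine (compactOperator (RingHom.id ℂ) (Ampl ι H) (Ampl ι H')).sum_mem fun i _ =>
    (compactOperator (RingHom.id ℂ) (Ampl ι H) (Ampl ι H')).sum_mem fun j _ => ?_
  exact ((h i j).comp_clm (PiLp.proj (𝕜 := ℂ) 2 (fun _ : ι => H) j : Ampl ι H →L[ℂ] H)).clm_comp
    ((PiLp.continuousLinearEquiv 2 ℂ (fun _ : ι => H')).symm.toContinuousLinearMap.comp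
      (ContinuousLinearMap.single ℂ (fun _ : ι => H') i))

/-- An amplified space is cut into slots. -/
noncomputable def slots (ι : Type) [Fintype ι] (Q : ℕ) (G : Type) [NormedAddCommGroup G]
    [InnerProductSpace ℂ G] : Slots Q (Ampl (ι × Fin Q) G) (Ampl ι G) where
  toFun v := WithLp.toLp 2 fun q => WithLp.toLp 2 fun i => v (i, q)
  invFun w := WithLp.toLp 2 fun p => w p.2 p.1
  map_add' _ _ := rfl
  map_smul' _ _ := rfl
  left_inv _ := rfl
  right_inv _ := rfl
  norm_map' v := by
    refine (sq_eq_sq₀ (norm_nonneg _) (norm_nonneg _)).1 ?_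
    rw [PiLp.norm_sq_eq_of_L2, PiLp.norm_sq_eq_of_L2, Fintype.sum_prod_type_right]
    refine Finset.sum_congr rfl fun q _ => ?_
    exact PiLp.norm_sq_eq_of_L2 _ _

theorem slots_apply (Q : ℕ) (v : Ampl (ι × Fin Q) H) (q : Fin Q) (i : ι) :
    slots ι Q H v q i = v (i, q) := rfl

theorem endDiag_amplMat {Q : ℕ} (N : Matrix ι ι (H →L[ℂ] H)) :
    EndDiag (slots ι Q H) (amplMat (Matrix.blockDiagonal fun _ => N)) (amplMat N) := by
  intro v q
  refine PiLp.ext fun i => ?_
  rw [slots_apply, amplMat_apply, amplMat_apply, Fintype.sum_prod_type]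
  refine Finset.sum_congr rfl fun j _ => ?_
  simp only [slots_apply, Matrix.blockDiagonal_apply]
  rw [Finset.sum_eq_single q (fun b _ hb => by simp [hb.symm]) (by simp)]
  simp

end VP212.Pair
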