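import Vale.Agent.P212.Pair.Amp

/-!
P212, pairing: the pair of representations, differing by compact operators, attached to a
Fredholm module.
-/

namespace VP212.Pair

variable {A : Type} [NonUnitalCStarAlgebra A]
  {H0 H1 : Type} [NormedAddCommGroup H0] [InnerProductSpace ℂ H0]
  [NormedAddCommGroup H1] [InnerProductSpace ℂ H1]

/-- The space carrying both representations. -/
abbrev Gp (H0 H1 : Type) [NormedAddCommGroup H0] [InnerProductSpace ℂ H0] [NormedAddCommGroup H1]
    [InnerProductSpace ℂ H1] := WithLp 2 (H1 × H0)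

/-- The first inclusion. -/
noncomputable def be : H1 →L[ℂ] Gp H0 H1 :=
  (WithLp.prodContinuousLinearEquiv 2 ℂ H1 H0).symm.toContinuousLinearMap.comp
    (ContinuousLinearMap.inl ℂ H1 H0)

/-- The second inclusion. -/
noncomputable def ga : H0 →L[ℂ] Gp H0 H1 :=
  (WithLp.prodContinuousLinearEquiv 2 ℂ H1 H0).symm.toContinuousLinearMap.comp
    (ContinuousLinearMap.inr ℂ H1 H0)

/-- The first projection. -/
noncomputable def be' : Gp H0 H1 →L[ℂ] H1 :=
  (ContinuousLinearMap.fst ℂ H1 H0).comp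
    (WithLp.prodContinuousLinearEquiv 2 ℂ H1 H0).toContinuousLinearMap

/-- The second projection. -/
noncomputable def ga' : Gp H0 H1 →L[ℂ] H0 :=
  (ContinuousLinearMap.snd ℂ H1 H0).comp
    (WithLp.prodContinuousLinearEquiv 2 ℂ H1 H0).toContinuousLinearMap

theorem be_apply (x : H1) : be (H0 := H0) x = WithLp.toLp 2 (x, 0) := rfl
theorem ga_apply (x : H0) : ga (H1 := H1) x = WithLp.toLp 2 (0, x) := rfl
theorem be'_apply (x : Gp H0 H1) : be' x = x.fst := rfl
theorem ga'_apply (x : Gp H0 H1) : ga' x = x.snd := rfl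

/-- The twisted embedding. -/
noncomputable def al (W : H0 →L[ℂ] H1) (V : H1 →L[ℂ] H0) : H0 →L[ℂ] Gp H0 H1 :=
  be.comp W + ga.comp (1 - V.comp W)

/-- Its left inverse. -/
noncomputable def al' (W : H0 →L[ℂ] H1) (V : H1 →L[ℂ] H0) : Gp H0 H1 →L[ℂ] H0 :=
  ((2 : ℂ) • V - V.comp (W.comp V)).comp be' + (1 - V.comp W).comp ga'

theorem al_apply (W : H0 →L[ℂ] H1) (V : H1 →L[ℂ] H0) (x : H0) :
    al W V x = WithLp.toLp 2 (W x, x - V (W x)) := by
  simp [al, be_apply, ga_apply]
  rw [← WithLp.toLp_sub, ← WithLp.toLp_add]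
  simp

theorem al'_apply (W : H0 →L[ℂ] H1) (V : H1 →L[ℂ] H0) (x : Gp H0 H1) :
    al' W V x = (2 : ℂ) • V x.fst - V (W (V x.fst)) + (x.snd - V (W x.snd)) := by
  simp [al', be'_apply, ga'_apply]

theorem be'_be (x : H1) : be' (be (H0 := H0) x) = x := rfl

theorem al'_al (W : H0 →L[ℂ] H1) (V : H1 →L[ℂ] H0) (x : H0) : al' W V (al W V x) = x := by
  rw [al'_apply, al_apply]
  simp only [WithLp.fst, WithLp.snd, map_sub]
  module

theorem be'_al (W : H0 →L[ℂ] H1) (V : H1 →L[ℂ] H0) (x : H0) : be' (al W V x) = W x := by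
  rw [be'_apply, al_apply]; rfl

variable [CompleteSpace H0] [CompleteSpace H1]

variable (ρ0 : A →⋆ₙₐ[ℂ] (H0 →L[ℂ] H0)) (ρ1 : A →⋆ₙₐ[ℂ] (H1 →L[ℂ] H1))
  (W : H0 →L[ℂ] H1) (V : H1 →L[ℂ] H0)

/-- The representation on the first summand. -/
noncomputable def sg : A →ₙ+* (Gp H0 H1 →L[ℂ] Gp H0 H1) where
  toFun a := be.comp ((ρ1 a).comp be')
  map_mul' a b := by
    refine ContinuousLinearMap.ext fun x => ?_
    simp [be'_be]
  map_zero' := by simp
  map_add' a b := by simp

/-- The twisted representation. -/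
noncomputable def ta : A →ₙ+* (Gp H0 H1 →L[ℂ] Gp H0 H1) where
  toFun a := (al W V).comp ((ρ0 a).comp (al' W V))
  map_mul' a b := by
    refine ContinuousLinearMap.ext fun x => ?_
    simp [al'_al]
  map_zero' := by simp
  map_add' a b := by simp

theorem sg_apply (a : A) : sg (H0 := H0) ρ1 a = be.comp ((ρ1 a).comp be') := rfl
theorem ta_apply (a : A) : ta ρ0 W V a = (al W V).comp ((ρ0 a).comp (al' W V)) := rfl

theorem sg_smul (c : ℂ) (a : A) : sg (H0 := H0) ρ1 (c • a) = c • sg (H0 := H0) ρ1 a := by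
  simp [sg_apply]

theorem ta_smul (c : ℂ) (a : A) : ta ρ0 W V (c • a) = c • ta ρ0 W V a := by
  simp [ta_apply]

theorem continuous_starHom {H : Type} [NormedAddCommGroup H] [InnerProductSpace ℂ H]
    [CompleteSpace H] (ρ : A →⋆ₙₐ[ℂ] (H →L[ℂ] H)) : Continuous ρ :=
  AddMonoidHomClass.continuous_of_bound ρ 1 fun a => by
    rw [one_mul]; exact NonUnitalStarAlgHom.norm_apply_le ρ a

theorem continuous_sg : Continuous (sg (H0 := H0) ρ1) :=
  continuous_const.clm_comp ((continuous_starHom ρ1).clm_comp continuous_const)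

theorem continuous_ta : Continuous (ta ρ0 W V) :=
  continuous_const.clm_comp ((continuous_starHom ρ0).clm_comp continuous_const)

/-- The conditions used from the definition of a Fredholm module. -/
structure IsMod : Prop where
  commW : ∀ a, IsCompactOperator (W.comp (ρ0 a) - (ρ1 a).comp W)
  commV : ∀ a, IsCompactOperator (V.comp (ρ1 a) - (ρ0 a).comp V)
  sq0 : ∀ a, IsCompactOperator ((ρ0 a).comp (V.comp W - 1))
  sq1 : ∀ a, IsCompactOperator ((ρ1 a).comp (W.comp V - 1))

variable {ρ0 ρ1 W V}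

/-- The two representations agree modulo compact operators. -/
theorem IsMod.isCompact_sub (h : IsMod ρ0 ρ1 W V) (a : A) :
    IsCompactOperator (ta ρ0 W V a - sg (H0 := H0) ρ1 a) := by
  set Bm : H0 →L[ℂ] H0 := 1 - V.comp W with hBm
  set A' : H1 →L[ℂ] H0 := (2 : ℂ) • V - V.comp (W.comp V) with hA'
  have hrB : IsCompactOperator ((ρ0 a).comp Bm) := by
    have e : (ρ0 a).comp Bm = -((ρ0 a).comp (V.comp W - 1)) := by
      rw [← ContinuousLinearMap.comp_neg, neg_sub]
    rw [e]; exact (h.sq0 a).neg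
  have hBr : IsCompactOperator (Bm.comp (ρ0 a)) := by
    have e : Bm.comp (ρ0 a) = (ρ0 a).comp Bm -
        ((V.comp (ρ1 a) - (ρ0 a).comp V).comp W + V.comp (W.comp (ρ0 a) - (ρ1 a).comp W)) := by
      refine ContinuousLinearMap.ext fun x => ?_
      simp only [hBm, _root_.sub_apply, _root_.add_apply, ContinuousLinearMap.comp_apply,
        one_apply_eq_self, map_sub]
      abel
    rw [e]
    exact hrB.sub (((h.commV a).comp_clm W).add ((h.commW a).clm_comp V))
  have hWA : IsCompactOperator ((W.comp (ρ0 a)).comp A' - ρ1 a) := by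
    have e : (W.comp (ρ0 a)).comp A' - ρ1 a = (W.comp (ρ0 a) - (ρ1 a).comp W).comp A' -
        ((ρ1 a).comp (W.comp V - 1)).comp (W.comp V - 1) := by
      refine ContinuousLinearMap.ext fun x => ?_
      simp only [hA', _root_.sub_apply, ContinuousLinearMap.comp_apply, _root_.smul_apply,
        one_apply_eq_self, map_sub, map_smul]
      module
    rw [e]
    exact ((h.commW a).comp_clm A').sub ((h.sq1 a).comp_clm (W.comp V - 1))
  have e : ta ρ0 W V a - sg (H0 := H0) ρ1 a =
      (be.comp ((W.comp (ρ0 a)).comp A' - ρ1 a)).comp be' +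
      ((be.comp W).comp ((ρ0 a).comp Bm)).comp ga' +
      (ga.comp (Bm.comp (ρ0 a))).comp (A'.comp be') +
      (ga.comp (Bm.comp (ρ0 a))).comp (Bm.comp ga') := by
    refine ContinuousLinearMap.ext fun x => ?_
    simp only [ta_apply, sg_apply, al, al', ← hBm, ← hA', _root_.sub_apply, _root_.add_apply,
      ContinuousLinearMap.comp_apply, map_add, map_sub]
    abel
  rw [e]
  exact ((((hWA.clm_comp be).comp_clm be').add ((hrB.clm_comp (be.comp W)).comp_clm ga')).add
    ((hBr.clm_comp ga).comp_clm (A'.comp be'))).add ((hBr.clm_comp ga).comp_clm (Bm.comp ga'))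

end VP212.Pair
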