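import Vale.Agent.P212.Pair.Path

/-!
P212, pairing: the homomorphism on K-homology attached to a path of matrices.
-/

open Set
open scoped InnerProductSpace

namespace VP212.Pair

/-- A linear isometry applied in every coordinate. -/
noncomputable def ampIso (ι : Type) [Fintype ι] {H H' : Type} [NormedAddCommGroup H]
    [InnerProductSpace ℂ H] [NormedAddCommGroup H'] [InnerProductSpace ℂ H'] (f : H →ₗᵢ[ℂ] H') :
    Ampl ι H →ₗᵢ[ℂ] Ampl ι H' where
  toFun v := WithLp.toLp 2 fun i => f (v i)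
  map_add' v w := by ext i; simp
  map_smul' c v := by ext i; simp
  norm_map' v := by
    refine (sq_eq_sq₀ (norm_nonneg _) (norm_nonneg _)).1 ?_
    rw [PiLp.norm_sq_eq_of_L2, PiLp.norm_sq_eq_of_L2]
    simp

theorem ampIso_apply {ι : Type} [Fintype ι] {H H' : Type} [NormedAddCommGroup H]
    [InnerProductSpace ℂ H] [NormedAddCommGroup H'] [InnerProductSpace ℂ H'] (f : H →ₗᵢ[ℂ] H')
    (v : Ampl ι H) (i : ι) : ampIso ι f v i = f (v i) := rfl

section

variable {H0 H1 K0 K1 : Type} [NormedAddCommGroup H0] [InnerProductSpace ℂ H0]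
  [NormedAddCommGroup H1] [InnerProductSpace ℂ H1] [NormedAddCommGroup K0] [InnerProductSpace ℂ K0]
  [NormedAddCommGroup K1] [InnerProductSpace ℂ K1]

/-- A pair of isometries on the carrying space. -/
noncomputable def gpIso (f0 : H0 →ₗᵢ[ℂ] K0) (f1 : H1 →ₗᵢ[ℂ] K1) : Gp H0 H1 →ₗᵢ[ℂ] Gp K0 K1 where
  toFun x := WithLp.toLp 2 (f1 x.fst, f0 x.snd)
  map_add' x y := WithLp.ofLp_injective 2 (Prod.ext (f1.map_add _ _) (f0.map_add _ _))
  map_smul' c x := WithLp.ofLp_injective 2 (Prod.ext (f1.map_smul _ _) (f0.map_smul _ _))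
  norm_map' x := by
    refine (sq_eq_sq₀ (norm_nonneg _) (norm_nonneg _)).1 ?_
    rw [WithLp.prod_norm_sq_eq_of_L2, WithLp.prod_norm_sq_eq_of_L2]
    simp

variable {A : Type} [NonUnitalCStarAlgebra A] [CompleteSpace H0] [CompleteSpace H1]
  [CompleteSpace K0] [CompleteSpace K1]
  {ρ0 : A →⋆ₙₐ[ℂ] (H0 →L[ℂ] H0)} {ρ1 : A →⋆ₙₐ[ℂ] (H1 →L[ℂ] H1)} {W : H0 →L[ℂ] H1}
  {V : H1 →L[ℂ] H0} {r0 : A →⋆ₙₐ[ℂ] (K0 →L[ℂ] K0)} {r1 : A →⋆ₙₐ[ℂ] (K1 →L[ℂ] K1)}
  {W' : K0 →L[ℂ] K1} {V' : K1 →L[ℂ] K0}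

theorem Kmat_intertwine {f0 : H0 →ₗᵢ[ℂ] K0} {f1 : H1 →ₗᵢ[ℂ] K1}
    (h0 : ∀ a x, r0 a (f0 x) = f0 (ρ0 a x)) (h1 : ∀ a x, r1 a (f1 x) = f1 (ρ1 a x))
    (hW : ∀ x, W' (f0 x) = f1 (W x)) (hV : ∀ x, V' (f1 x) = f0 (V x))
    {ι : Type} [Fintype ι] (a b : Matrix ι ι A) (v : Ampl ι (Gp H0 H1)) :
    Kmat r0 r1 W' V' a b (ampIso ι (gpIso f0 f1) v) =
      ampIso ι (gpIso f0 f1) (Kmat ρ0 ρ1 W V a b v) := by
  have hg : ∀ x : Gp H0 H1, (gpIso f0 f1 x).fst = f1 x.fst ∧ (gpIso f0 f1 x).snd = f0 x.snd :=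
    fun x => ⟨rfl, rfl⟩
  have hs : ∀ c x, sg (H0 := K0) r1 c (gpIso f0 f1 x) = gpIso f0 f1 (sg (H0 := H0) ρ1 c x) := by
    intro c x
    simp only [sg_apply, ContinuousLinearMap.comp_apply, be'_apply, be_apply, (hg x).1, h1]
    exact WithLp.ofLp_injective 2 (Prod.ext rfl f0.map_zero.symm)
  have ht : ∀ c x, ta r0 W' V' c (gpIso f0 f1 x) = gpIso f0 f1 (ta ρ0 W V c x) := by
    intro c x
    simp only [ta_apply, ContinuousLinearMap.comp_apply, al_apply, al'_apply, (hg x).1, (hg x).2,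
      hW, hV, ← map_sub, ← map_smul, ← map_add, h0]
    rfl
  have hS : ∀ (m : Matrix ι ι A) u, amplMat (m.map (sg (H0 := K0) r1)) (ampIso ι (gpIso f0 f1) u) =
      ampIso ι (gpIso f0 f1) (amplMat (m.map (sg (H0 := H0) ρ1)) u) := fun m u =>
    PiLp.ext fun i => by simp [amplMat_apply, ampIso_apply, hs]
  have hT : ∀ (m : Matrix ι ι A) u, amplMat (m.map (ta r0 W' V')) (ampIso ι (gpIso f0 f1) u) =
      ampIso ι (gpIso f0 f1) (amplMat (m.map (ta ρ0 W V)) u) := fun m u =>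
    PiLp.ext fun i => by simp [amplMat_apply, ampIso_apply, ht]
  simp only [Kmat, _root_.add_apply, ContinuousLinearMap.mul_def, ContinuousLinearMap.comp_apply,
    hS, hT, map_add]

end

variable {A : Type} [NonUnitalCStarAlgebra A] {Q : ℕ}

theorem isMod (M : FredMod A) : IsMod M.ρ0 M.ρ1 M.W M.V := ⟨M.commW, M.commV, M.sq0, M.sq1⟩

variable (p : QPath A Q)

/-- The end matrix of a path. -/
noncomputable def endV : Matrix p.ι p.ι A := p.finish.choose

/-- The quasi-inverse of the end matrix. -/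
noncomputable def endV' : Matrix p.ι p.ι A := p.finish.choose_spec.choose

theorem endV_spec : endV p + endV' p + endV p * endV' p = 0 ∧
    endV p + endV' p + endV' p * endV p = 0 ∧
    p.a 1 = Matrix.blockDiagonal (fun _ : Fin Q => endV p) := by
  refine ⟨p.finish.choose_spec.choose_spec.1, p.finish.choose_spec.choose_spec.2.1, ?_⟩
  ext ⟨i, x⟩ ⟨j, y⟩
  rw [Matrix.blockDiagonal_apply]
  exact p.finish.choose_spec.choose_spec.2.2 i j x y

theorem qinv_unique {n : Type} [Fintype n] {a b c : Matrix n n A} (h : b + a + b * a = 0)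
    (h' : a + c + a * c = 0) : b = c := by
  have e : b = b + (a + c + a * c) + b * (a + c + a * c) := by rw [h']; simp
  have e' : c = (b + a + b * a) + c + (b + a + b * a) * c := by rw [h]; simp
  refine e.trans (Eq.trans ?_ e'.symm)
  simp only [Matrix.mul_add, Matrix.add_mul, Matrix.mul_assoc]
  abel

theorem b_one : p.b 1 = Matrix.blockDiagonal (fun _ : Fin Q => endV' p) := by
  refine qinv_unique (a := p.a 1) (by rw [add_comm (p.b 1)]; exact p.inv_ba 1) ?_
  rw [(endV_spec p).2.2, ← Matrix.blockDiagonal_mul, ← Matrix.blockDiagonal_add,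
    ← Matrix.blockDiagonal_add]
  have e : ((fun _ : Fin Q => endV p) + (fun _ : Fin Q => endV' p) +
      fun _ : Fin Q => endV p * endV' p) = 0 := funext fun _ => (endV_spec p).1
  rw [e, Matrix.blockDiagonal_zero]

theorem b_zero : p.b 0 = 0 := by
  have := p.inv_ab 0
  simpa [p.start] using this

theorem continuous_path : Continuous p.a ∧ Continuous p.b :=
  ⟨continuous_matrix p.cont_a, continuous_matrix p.cont_b⟩

/-- The path of perturbations of a module. -/
noncomputable def modK (M : FredMod A) (t : ℝ) :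
    Ampl (p.ι × Fin Q) (Gp M.H0.carrier M.H1.carrier) →L[ℂ]
      Ampl (p.ι × Fin Q) (Gp M.H0.carrier M.H1.carrier) :=
  Kmat M.ρ0 M.ρ1 M.W M.V (p.a t) (p.b t)

/-- Its end. -/
noncomputable def modC (M : FredMod A) :
    Ampl p.ι (Gp M.H0.carrier M.H1.carrier) →L[ℂ] Ampl p.ι (Gp M.H0.carrier M.H1.carrier) :=
  Kmat M.ρ0 M.ρ1 M.W M.V (endV p) (endV' p)

theorem modK_zero (M : FredMod A) : modK p M 0 = 0 := by
  rw [modK, p.start, b_zero, Kmat_zero]

theorem endDiag_modK (M : FredMod A) :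
    EndDiag (slots p.ι Q _) (modK p M 1) (modC p M) := by
  rw [modK, b_one, (endV_spec p).2.2]
  exact endDiag_Kmat M.ρ0 M.ρ1 _ _

theorem isPath_modK (M : FredMod A) : IsPath (slots p.ι Q _) (modK p M) (modC p M) := by
  obtain ⟨h1, h2⟩ := continuous_Kmat M.ρ0 M.ρ1 (W := fun _ : ℝ => M.W) (V := fun _ : ℝ => M.V)
    continuous_const continuous_const (continuous_path p).1 (continuous_path p).2
  refine isPath_of_inverse h1.continuousOn h2.continuousOn (fun t _ => ?_) (fun t _ => ?_)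
    (modK_zero p M) (endDiag_modK p M)
  · exact (isMod M).isCompact_Kmat (by rw [add_comm (p.b t)]; exact p.inv_ba t)
  · exact Kmat_inverse _ _ _ _ (p.inv_ab t) (by rw [add_comm (p.b t)]; exact p.inv_ba t)

variable (hQ : 0 < Q)

/-- The invariant of a module. -/
noncomputable def modInv (M : FredMod A) : ZMod Q :=
  ((isPath_modK p M).existsUnique_inv hQ).exists.choose

theorem modInv_spec (M : FredMod A) :
    HasInv (slots p.ι Q _) (modK p M) (modC p M) (modInv p hQ M) :=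
  ((isPath_modK p M).existsUnique_inv hQ).exists.choose_spec

theorem modInv_eq {M : FredMod A} {z : ZMod Q}
    (h : HasInv (slots p.ι Q _) (modK p M) (modC p M) z) : modInv p hQ M = z :=
  (modInv_spec p hQ M).unique (isPath_modK p M) h

theorem modInv_unitaryEquiv {M N : FredMod A} (h : UnitaryEquiv M N) :
    modInv p hQ M = modInv p hQ N := by
  obtain ⟨U0, U1, h0, h1, hW, hV⟩ := h
  have surj : ∀ {ι : Type} [Fintype ι],
      Function.Surjective (ampIso ι (gpIso U0.toLinearIsometry U1.toLinearIsometry)) := fun {ι} _ w =>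
    ⟨WithLp.toLp 2 fun i => WithLp.toLp 2 (U1.symm (w i).fst, U0.symm (w i).snd),
      PiLp.ext fun i => WithLp.ofLp_injective 2
        (Prod.ext (U1.apply_symm_apply _) (U0.apply_symm_apply _))⟩
  let e := LinearIsometryEquiv.ofSurjective
    (ampIso (p.ι × Fin Q) (gpIso U0.toLinearIsometry U1.toLinearIsometry)) surj
  let eb := LinearIsometryEquiv.ofSurjective
    (ampIso p.ι (gpIso U0.toLinearIsometry U1.toLinearIsometry)) surj
  refine (modInv_eq p hQ (hasInv_iso hQ e eb (fun v q => rfl) (isPath_modK p M) (isPath_modK p N)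
    (fun t _ v => ?_) (fun x => ?_) (modInv_spec p hQ M))).symm
  · exact Kmat_intertwine (fun a x => (h0 a x).symm) (fun a x => (h1 a x).symm)
      (fun x => (hW x).symm) (fun x => (hV x).symm) _ _ v
  · exact Kmat_intertwine (fun a x => (h0 a x).symm) (fun a x => (h1 a x).symm)
      (fun x => (hW x).symm) (fun x => (hV x).symm) _ _ x

theorem modInv_homotopic {M N : FredMod A} (h : OperatorHomotopic M N) :
    modInv p hQ M = modInv p hQ N := by
  obtain ⟨H0, H1, r0, r1, W, V, cW, cV, s0, s1, sa, hW, hV, rfl, rfl⟩ := h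
  symm
  refine modInv_eq p hQ ?_
  obtain ⟨h1, h2⟩ := continuous_Kmat r0 r1 (W := fun x : ℝ × ℝ => W x.1)
    (V := fun x : ℝ × ℝ => V x.1) (hW.comp continuous_fst) (hV.comp continuous_fst)
    ((continuous_path p).1.comp continuous_snd) ((continuous_path p).2.comp continuous_snd)
  exact hasInv_homotopy' hQ (k := fun s t => Kmat r0 r1 (W s) (V s) (p.a t) (p.b t))
    (k' := fun s t => Kmat' r0 r1 (W s) (V s) (p.a t) (p.b t))
    (c := fun s => Kmat r0 r1 (W s) (V s) (endV p) (endV' p))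
    h1.continuousOn h2.continuousOn
    (continuous_Kmat r0 r1 hW hV continuous_const continuous_const).1.continuousOn
    (fun s _ t _ =>
      ⟨(isMod ⟨H0, H1, r0, r1, W s, V s, cW s, cV s, s0 s, s1 s, sa s⟩).isCompact_Kmat
        (by rw [add_comm (p.b t)]; exact p.inv_ba t),
        Kmat_inverse _ _ _ _ (p.inv_ab t) (by rw [add_comm (p.b t)]; exact p.inv_ba t)⟩)
    (fun s _ => modK_zero p ⟨H0, H1, r0, r1, W s, V s, cW s, cV s, s0 s, s1 s, sa s⟩)
    (fun s _ => endDiag_modK p ⟨H0, H1, r0, r1, W s, V s, cW s, cV s, s0 s, s1 s, sa s⟩)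
    (modInv_spec p hQ ⟨H0, H1, r0, r1, W 0, V 0, cW 0, cV 0, s0 0, s1 0, sa 0⟩)

/-- The first coordinate inclusion of a sum. -/
noncomputable def inclL (H H' : Type) [NormedAddCommGroup H] [InnerProductSpace ℂ H]
    [NormedAddCommGroup H'] [InnerProductSpace ℂ H'] : H →ₗᵢ[ℂ] WithLp 2 (H × H') where
  toFun x := WithLp.toLp 2 (x, 0)
  map_add' x y := by simp [← WithLp.toLp_add]
  map_smul' c x := by simp [← WithLp.toLp_smul]
  norm_map' x := by simp

/-- The second coordinate inclusion of a sum. -/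
noncomputable def inclR (H H' : Type) [NormedAddCommGroup H] [InnerProductSpace ℂ H]
    [NormedAddCommGroup H'] [InnerProductSpace ℂ H'] : H' →ₗᵢ[ℂ] WithLp 2 (H × H') where
  toFun x := WithLp.toLp 2 (0, x)
  map_add' x y := by simp [← WithLp.toLp_add]
  map_smul' c x := by simp [← WithLp.toLp_smul]
  norm_map' x := by simp

theorem sum_orth {H0 H0' H1 H1' K0 K1 : Type} [NormedAddCommGroup H0] [InnerProductSpace ℂ H0]
    [NormedAddCommGroup H0'] [InnerProductSpace ℂ H0'] [NormedAddCommGroup H1]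
    [InnerProductSpace ℂ H1] [NormedAddCommGroup H1'] [InnerProductSpace ℂ H1']
    [NormedAddCommGroup K0] [InnerProductSpace ℂ K0] [NormedAddCommGroup K1]
    [InnerProductSpace ℂ K1] (L0 : WithLp 2 (H0 × H0') ≃ₗᵢ[ℂ] K0)
    (L1 : WithLp 2 (H1 × H1') ≃ₗᵢ[ℂ] K1) {ι : Type} [Fintype ι] (x : Ampl ι (Gp H0 H1))
    (y : Ampl ι (Gp H0' H1')) :
    ⟪ampIso ι (gpIso (L0.toLinearIsometry.comp (inclL H0 H0'))
        (L1.toLinearIsometry.comp (inclL H1 H1'))) x,
      ampIso ι (gpIso (L0.toLinearIsometry.comp (inclR H0 H0'))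
        (L1.toLinearIsometry.comp (inclR H1 H1'))) y⟫_ℂ = 0 := by
  rw [PiLp.inner_apply]
  refine Finset.sum_eq_zero fun i _ => ?_
  rw [WithLp.prod_inner_apply]
  show ⟪L1 (WithLp.toLp 2 ((x i).fst, 0)), L1 (WithLp.toLp 2 (0, (y i).fst))⟫_ℂ +
    ⟪L0 (WithLp.toLp 2 ((x i).snd, 0)), L0 (WithLp.toLp 2 (0, (y i).snd))⟫_ℂ = 0
  simp [LinearIsometryEquiv.inner_map_map, WithLp.prod_inner_apply]

theorem sum_span {H0 H0' H1 H1' K0 K1 : Type} [NormedAddCommGroup H0] [InnerProductSpace ℂ H0]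
    [NormedAddCommGroup H0'] [InnerProductSpace ℂ H0'] [NormedAddCommGroup H1]
    [InnerProductSpace ℂ H1] [NormedAddCommGroup H1'] [InnerProductSpace ℂ H1']
    [NormedAddCommGroup K0] [InnerProductSpace ℂ K0] [NormedAddCommGroup K1]
    [InnerProductSpace ℂ K1] (L0 : WithLp 2 (H0 × H0') ≃ₗᵢ[ℂ] K0)
    (L1 : WithLp 2 (H1 × H1') ≃ₗᵢ[ℂ] K1) {ι : Type} [Fintype ι] (y : Ampl ι (Gp K0 K1)) :
    ∃ x x', y = ampIso ι (gpIso (L0.toLinearIsometry.comp (inclL H0 H0'))
        (L1.toLinearIsometry.comp (inclL H1 H1'))) x +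
      ampIso ι (gpIso (L0.toLinearIsometry.comp (inclR H0 H0'))
        (L1.toLinearIsometry.comp (inclR H1 H1'))) x' := by
  refine ⟨WithLp.toLp 2 fun i => WithLp.toLp 2 ((L1.symm (y i).fst).fst, (L0.symm (y i).snd).fst),
    WithLp.toLp 2 fun i => WithLp.toLp 2 ((L1.symm (y i).fst).snd, (L0.symm (y i).snd).snd),
    PiLp.ext fun i => WithLp.ofLp_injective 2 (Prod.ext ?_ ?_)⟩
  · show (y i).fst = L1 (WithLp.toLp 2 (_, 0)) + L1 (WithLp.toLp 2 (0, _))
    rw [← map_add, ← WithLp.toLp_add, Prod.mk_add_mk, add_zero, zero_add]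
    exact (L1.apply_symm_apply _).symm
  · show (y i).snd = L0 (WithLp.toLp 2 (_, 0)) + L0 (WithLp.toLp 2 (0, _))
    rw [← map_add, ← WithLp.toLp_add, Prod.mk_add_mk, add_zero, zero_add]
    exact (L0.apply_symm_apply _).symm

theorem modInv_isSum {M N D : FredMod A} (h : IsSum M N D) :
    modInv p hQ M + modInv p hQ N = modInv p hQ D := by
  obtain ⟨L0, L1, h0, h1, hW, hV⟩ := h
  let f0 := L0.toLinearIsometry.comp (inclL M.H0.carrier N.H0.carrier)
  let f1 := L1.toLinearIsometry.comp (inclL M.H1.carrier N.H1.carrier)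
  let g0 := L0.toLinearIsometry.comp (inclR M.H0.carrier N.H0.carrier)
  let g1 := L1.toLinearIsometry.comp (inclR M.H1.carrier N.H1.carrier)
  have a0 : ∀ a x, D.ρ0 a (f0 x) = f0 (M.ρ0 a x) := fun a x => by
    have := h0 a x 0; rw [map_zero] at this; exact this
  have a1 : ∀ a x, D.ρ1 a (f1 x) = f1 (M.ρ1 a x) := fun a x => by
    have := h1 a x 0; rw [map_zero] at this; exact this
  have a2 : ∀ x, D.W (f0 x) = f1 (M.W x) := fun x => by
    have := hW x 0; rw [map_zero] at this; exact this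
  have a3 : ∀ x, D.V (f1 x) = f0 (M.V x) := fun x => by
    have := hV x 0; rw [map_zero] at this; exact this
  have b0 : ∀ a x, D.ρ0 a (g0 x) = g0 (N.ρ0 a x) := fun a x => by
    have := h0 a 0 x; rw [map_zero] at this; exact this
  have b1 : ∀ a x, D.ρ1 a (g1 x) = g1 (N.ρ1 a x) := fun a x => by
    have := h1 a 0 x; rw [map_zero] at this; exact this
  have b2 : ∀ x, D.W (g0 x) = g1 (N.W x) := fun x => by
    have := hW 0 x; rw [map_zero] at this; exact this
  have b3 : ∀ x, D.V (g1 x) = g0 (N.V x) := fun x => by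
    have := hV 0 x; rw [map_zero] at this; exact this
  symm
  have e1 : ∀ t ∈ Icc (0 : ℝ) 1, ∀ v, modK p D t (ampIso (p.ι × Fin Q) (gpIso f0 f1) v) =
      ampIso (p.ι × Fin Q) (gpIso f0 f1) (modK p M t v) :=
    fun t _ v => Kmat_intertwine a0 a1 a2 a3 (p.a t) (p.b t) v
  have e2 : ∀ t ∈ Icc (0 : ℝ) 1, ∀ v, modK p D t (ampIso (p.ι × Fin Q) (gpIso g0 g1) v) =
      ampIso (p.ι × Fin Q) (gpIso g0 g1) (modK p N t v) :=
    fun t _ v => Kmat_intertwine b0 b1 b2 b3 (p.a t) (p.b t) v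
  have e3 : ∀ v, modC p D (ampIso p.ι (gpIso f0 f1) v) = ampIso p.ι (gpIso f0 f1) (modC p M v) :=
    fun v => Kmat_intertwine a0 a1 a2 a3 (endV p) (endV' p) v
  have e4 : ∀ v, modC p D (ampIso p.ι (gpIso g0 g1) v) = ampIso p.ι (gpIso g0 g1) (modC p N v) :=
    fun v => Kmat_intertwine b0 b1 b2 b3 (endV p) (endV' p) v
  have ho := sum_orth L0 L1 (ι := p.ι)
  have hsp := sum_span L0 L1 (ι := p.ι)
  have hh := hasInv_sum hQ (U := slots p.ι Q (Gp M.H0.carrier M.H1.carrier))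
    (U' := slots p.ι Q (Gp N.H0.carrier N.H1.carrier))
    (U'' := slots p.ι Q (Gp D.H0.carrier D.H1.carrier))
    (ampIso _ (gpIso f0 f1)) (ampIso _ (gpIso g0 g1)) (ampIso _ (gpIso f0 f1))
    (ampIso _ (gpIso g0 g1)) (fun v q => rfl) (fun v q => rfl)
    ho hsp (isPath_modK p M) (isPath_modK p N) (isPath_modK p D) e1 e2 e3 e4
    (modInv_spec p hQ M) (modInv_spec p hQ N)
  exact modInv_eq p hQ hh

/-- The homomorphism on K-homology. -/
noncomputable def pairHom : KHom A →+ ZMod Q :=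
  QuotientAddGroup.lift _ (FreeAbelianGroup.lift (modInv p hQ)) <| by
    rw [AddSubgroup.closure_le]
    rintro _ (⟨M, N, h, rfl⟩ | ⟨M, N, D, h, rfl⟩)
    · rw [SetLike.mem_coe, AddMonoidHom.mem_ker, map_sub, FreeAbelianGroup.lift_apply_of,
        FreeAbelianGroup.lift_apply_of, sub_eq_zero]
      exact h.elim (modInv_unitaryEquiv p hQ) (modInv_homotopic p hQ)
    · rw [SetLike.mem_coe, AddMonoidHom.mem_ker, map_sub, map_add, FreeAbelianGroup.lift_apply_of,
        FreeAbelianGroup.lift_apply_of, FreeAbelianGroup.lift_apply_of, sub_eq_zero]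
      exact modInv_isSum p hQ h

theorem pairHom_kClass (M : FredMod A) : pairHom p hQ (kClass M) = modInv p hQ M := by
  simp [pairHom, kClass]

end VP212.Pair
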