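import Vale.Agent.P212.Pair.Inv

/-!
P212, pairing: isomorphism invariance and additivity of the invariant on orthogonal sums.
-/

open Set Module
open scoped InnerProductSpace

namespace VP212.Pair

variable {Q : ℕ}
  {L : Type*} [NormedAddCommGroup L] [InnerProductSpace ℂ L]
  {B : Type*} [NormedAddCommGroup B] [InnerProductSpace ℂ B]
  {L' : Type*} [NormedAddCommGroup L'] [InnerProductSpace ℂ L']
  {B' : Type*} [NormedAddCommGroup B'] [InnerProductSpace ℂ B']
  {L'' : Type*} [NormedAddCommGroup L''] [InnerProductSpace ℂ L'']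
  {B'' : Type*} [NormedAddCommGroup B''] [InnerProductSpace ℂ B'']

theorem bddBelow_uniform {α : Type*} [TopologicalSpace α] {K : Set α} (hK : IsCompact K)
    {f g : α → (L →L[ℂ] L)} (hg : ContinuousOn g K)
    (h : ∀ x ∈ K, f x + g x + (g x).comp (f x) = 0) :
    ∃ δ > 0, ∀ x ∈ K, BddBelow' δ (f x) := by
  obtain ⟨C, hC⟩ := hK.exists_bound_of_continuousOn hg
  exact ⟨(1 + max C 0)⁻¹, by positivity, fun x hx => bddBelow_of_inverse (h x hx)
    (by linarith [hC x hx, le_max_left C 0])⟩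

theorem isPath_of_inverse {U : Slots Q L B} {k k' : ℝ → (L →L[ℂ] L)} {c : B →L[ℂ] B}
    (hk : ContinuousOn k (Icc 0 1)) (hk' : ContinuousOn k' (Icc 0 1))
    (hc : ∀ t ∈ Icc (0 : ℝ) 1, IsCompactOperator (k t))
    (h : ∀ t ∈ Icc (0 : ℝ) 1, k t + k' t + (k' t).comp (k t) = 0)
    (h0 : k 0 = 0) (h1 : EndDiag U (k 1) c) : IsPath U k c :=
  ⟨hk, hc, bddBelow_uniform isCompact_Icc hk' h, h0, h1⟩

/-- Homotopy through paths with continuous inverses. -/
theorem hasInv_homotopy' {U : Slots Q L B} (hQ : 0 < Q) {k k' : ℝ → ℝ → (L →L[ℂ] L)}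
    {c : ℝ → (B →L[ℂ] B)}
    (hk : ContinuousOn (fun p : ℝ × ℝ => k p.1 p.2) (Icc 0 1 ×ˢ Icc 0 1))
    (hk' : ContinuousOn (fun p : ℝ × ℝ => k' p.1 p.2) (Icc 0 1 ×ˢ Icc 0 1))
    (hc : ContinuousOn c (Icc 0 1))
    (hkc : ∀ s ∈ Icc (0 : ℝ) 1, ∀ t ∈ Icc (0 : ℝ) 1,
      IsCompactOperator (k s t) ∧ k s t + k' s t + (k' s t).comp (k s t) = 0)
    (h0 : ∀ s ∈ Icc (0 : ℝ) 1, k s 0 = 0) (h1 : ∀ s ∈ Icc (0 : ℝ) 1, EndDiag U (k s 1) (c s))
    {z : ZMod Q} (h : HasInv U (k 0) (c 0) z) : HasInv U (k 1) (c 1) z := by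
  obtain ⟨δ, hδ, hb⟩ := bddBelow_uniform (isCompact_Icc.prod isCompact_Icc)
    (f := fun p : ℝ × ℝ => k p.1 p.2) hk' (fun p hp => (hkc p.1 hp.1 p.2 hp.2).2)
  exact hasInv_homotopy hQ hk hc hδ
    (fun s hs t ht => ⟨(hkc s hs t ht).1, hb (s, t) ⟨hs, ht⟩⟩) h0 h1 h

theorem map_proj_eq (i : L →ₗᵢ[ℂ] L'') (i' : L' →ₗᵢ[ℂ] L'') (horth : ∀ x y, ⟪i x, i' y⟫_ℂ = 0)
    (E : Submodule ℂ L) [FiniteDimensional ℂ E] (E' : Submodule ℂ L') [FiniteDimensional ℂ E']
    (x : L) :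
    (E.map i.toLinearMap ⊔ E'.map i'.toLinearMap).starProjection (i x) =
      i (E.starProjection x) := by
  refine Submodule.eq_starProjection_of_mem_of_inner_eq_zero
    (Submodule.mem_sup_left ⟨_, Submodule.starProjection_apply_mem _ _, rfl⟩) fun w hw => ?_
  obtain ⟨_, ⟨a, ha, rfl⟩, _, ⟨b, hb, rfl⟩, rfl⟩ := Submodule.mem_sup.1 hw
  rw [inner_add_right]
  have h1 : ⟪i x - i (E.starProjection x), i a⟫_ℂ = 0 := by
    rw [← map_sub, i.inner_map_map]
    exact Submodule.starProjection_inner_eq_zero _ _ ha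
  have h2 : ⟪i x - i (E.starProjection x), i' b⟫_ℂ = 0 := by
    rw [← map_sub, horth]
  simp only [LinearIsometry.coe_toLinearMap]
  rw [h1, h2, add_zero]

/-- The determinant of an orthogonal sum. -/
theorem Det_sum (i : L →ₗᵢ[ℂ] L'') (i' : L' →ₗᵢ[ℂ] L'') (horth : ∀ x y, ⟪i x, i' y⟫_ℂ = 0)
    (E : Submodule ℂ L) [FiniteDimensional ℂ E] (E' : Submodule ℂ L') [FiniteDimensional ℂ E']
    (E'' : Submodule ℂ L'') [FiniteDimensional ℂ E'']
    (hE : E'' = E.map i.toLinearMap ⊔ E'.map i'.toLinearMap)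
    {T : L →L[ℂ] L} {T' : L' →L[ℂ] L'} {T'' : L'' →L[ℂ] L''}
    (h : ∀ x, T'' (i x) = i (T x)) (h' : ∀ x, T'' (i' x) = i' (T' x)) :
    Det E'' T'' = Det E T * Det E' T' := by
  subst hE
  have horth' : ∀ y x, ⟪i' y, i x⟫_ℂ = 0 := fun y x => inner_eq_zero_symm.1 (horth x y)
  have hm : ∀ v : E × E', i (v.1 : L) + i' (v.2 : L') ∈
      E.map i.toLinearMap ⊔ E'.map i'.toLinearMap := fun v =>
    Submodule.add_mem _ (Submodule.mem_sup_left ⟨_, v.1.2, rfl⟩)
      (Submodule.mem_sup_right ⟨_, v.2.2, rfl⟩)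
  let φ : (E × E') →ₗ[ℂ] ↥(E.map i.toLinearMap ⊔ E'.map i'.toLinearMap) :=
    ((i.toLinearMap.comp E.subtype).coprod (i'.toLinearMap.comp E'.subtype)).codRestrict _ hm
  have hφ : ∀ v : E × E', (φ v : L'') = i v.1 + i' v.2 := fun v => rfl
  have hinj : Function.Injective φ := by
    refine (injective_iff_map_eq_zero _).2 fun v hv => ?_
    have h0 : i (v.1 : L) + i' (v.2 : L') = 0 := by rw [← hφ, hv]; rfl
    have h1 : ⟪i (v.1 : L), i (v.1 : L) + i' (v.2 : L')⟫_ℂ = 0 := by rw [h0, inner_zero_right]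
    rw [inner_add_right, horth, add_zero, inner_self_eq_zero, map_eq_zero_iff _ i.injective] at h1
    have h2 : i' (v.2 : L') = 0 := by rwa [h1, map_zero, zero_add] at h0
    rw [map_eq_zero_iff _ i'.injective] at h2
    exact Prod.ext (Subtype.ext h1) (Subtype.ext h2)
  have hsurj : Function.Surjective φ := by
    rintro ⟨w, hw⟩
    obtain ⟨_, ⟨a, ha, rfl⟩, _, ⟨b, hb, rfl⟩, hw'⟩ := Submodule.mem_sup.1 hw
    exact ⟨(⟨a, ha⟩, ⟨b, hb⟩), Subtype.ext hw'⟩
  let e := LinearEquiv.ofBijective φ ⟨hinj, hsurj⟩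
  have hc : compr (E.map i.toLinearMap ⊔ E'.map i'.toLinearMap) T'' =
      (e : (E × E') →ₗ[ℂ] ↥(E.map i.toLinearMap ⊔ E'.map i'.toLinearMap)) ∘ₗ
        LinearMap.prodMap (compr E T) (compr E' T') ∘ₗ
          (e.symm : ↥(E.map i.toLinearMap ⊔ E'.map i'.toLinearMap) →ₗ[ℂ] (E × E')) := by
    refine LinearMap.ext fun y => ?_
    obtain ⟨v, rfl⟩ := e.surjective y
    simp only [LinearMap.comp_apply, LinearEquiv.coe_coe, e.symm_apply_apply]
    refine Subtype.ext ?_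
    show (compr _ T'' (e v) : L'') = i (compr E T v.1 : L) + i' (compr E' T' v.2 : L')
    rw [coe_compr, coe_compr, coe_compr, show (e v : L'') = i v.1 + i' v.2 from rfl,
      map_add, map_add, map_add, map_add, h, h', map_proj_eq i i' horth]
    have := map_proj_eq i' i horth' E' E (T' v.2)
    simp only [sup_comm] at this
    rw [this]
    abel
  rw [Det, hc, LinearMap.det_conj, LinearMap.det_prodMap]
  rfl

/-- Additivity on orthogonal sums. -/
theorem hasInv_sum (hQ : 0 < Q) {U : Slots Q L B} {U' : Slots Q L' B'} {U'' : Slots Q L'' B''}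
    (i : L →ₗᵢ[ℂ] L'') (i' : L' →ₗᵢ[ℂ] L'') (j : B →ₗᵢ[ℂ] B'') (j' : B' →ₗᵢ[ℂ] B'')
    (hi : ∀ v q, U'' (i v) q = j (U v q)) (hi' : ∀ v q, U'' (i' v) q = j' (U' v q))
    (horth : ∀ x y, ⟪j x, j' y⟫_ℂ = 0) (hspan : ∀ y, ∃ x x', y = j x + j' x')
    {k : ℝ → (L →L[ℂ] L)} {k' : ℝ → (L' →L[ℂ] L')} {k'' : ℝ → (L'' →L[ℂ] L'')}
    {c : B →L[ℂ] B} {c' : B' →L[ℂ] B'} {c'' : B'' →L[ℂ] B''}
    (hk : IsPath U k c) (hk' : IsPath U' k' c') (hk'' : IsPath U'' k'' c'')
    (ek : ∀ t ∈ Icc (0 : ℝ) 1, ∀ v, k'' t (i v) = i (k t v))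
    (ek' : ∀ t ∈ Icc (0 : ℝ) 1, ∀ v, k'' t (i' v) = i' (k' t v))
    (ec : ∀ x, c'' (j x) = j (c x)) (ec' : ∀ x, c'' (j' x) = j' (c' x))
    {z z' : ZMod Q} (hz : HasInv U k c z) (hz' : HasInv U' k' c' z') :
    HasInv U'' k'' c'' (z + z') := by
  have horthL : ∀ x y, ⟪i x, i' y⟫_ℂ = 0 := fun x y => by
    rw [← U''.inner_map_map, PiLp.inner_apply]
    exact Finset.sum_eq_zero fun q _ => by rw [hi, hi', horth]
  have horth' : ∀ y x, ⟪i' y, i x⟫_ℂ = 0 := fun y x => inner_eq_zero_symm.1 (horthL x y)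
  choose a b hab using hspan
  have hspanL : ∀ y, ∃ x x', y = i x + i' x' := fun y => by
    refine ⟨U.symm (WithLp.toLp 2 fun q => a (U'' y q)),
      U'.symm (WithLp.toLp 2 fun q => b (U'' y q)), U''.injective (PiLp.ext fun q => ?_)⟩
    rw [map_add, PiLp.add_apply, hi, hi', U.apply_symm_apply, U'.apply_symm_apply]
    exact hab _
  obtain ⟨d, hd, hbd⟩ := hk.bdd
  obtain ⟨d', hd', hbd'⟩ := hk'.bdd
  obtain ⟨d'', hd'', hbd''⟩ := hk''.bdd
  set ε := min d (min d' d'') / 4 with hε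
  have hε0 : 0 < ε := by positivity
  obtain ⟨F, hF, hFb⟩ := exists_sbox_approx U (isCompact_Icc.image_of_continuousOn hk.cont)
    (by rintro _ ⟨t, ht, rfl⟩; exact hk.compact t ht) hε0
  obtain ⟨F', hF', hFb'⟩ := exists_sbox_approx U' (isCompact_Icc.image_of_continuousOn hk'.cont)
    (by rintro _ ⟨t, ht, rfl⟩; exact hk'.compact t ht) hε0
  have l1 : ε < d := by rw [hε]; linarith [min_le_left d (min d' d'')]
  have l2 : ε < d' := by
    rw [hε]; linarith [min_le_right d (min d' d''), min_le_left d' d'']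
  have l3 : 2 * ε < d'' := by
    rw [hε]; linarith [min_le_right d (min d' d''), min_le_right d' d'']
  have gk : Good U F k := ⟨d, hd, fun t ht => ⟨hbd t ht, (hFb _ ⟨t, ht, rfl⟩).trans_lt l1⟩⟩
  have gk' : Good U' F' k' :=
    ⟨d', hd', fun t ht => ⟨hbd' t ht, (hFb' _ ⟨t, ht, rfl⟩).trans_lt l2⟩⟩
  let F'' : Submodule ℂ B'' := F.map j.toLinearMap ⊔ F'.map j'.toLinearMap
  have hbox : sbox U'' F'' = (sbox U F).map i.toLinearMap ⊔ (sbox U' F').map i'.toLinearMap := by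
    refine le_antisymm (fun y hy => ?_) (sup_le ?_ ?_)
    · have hy' := fun q => Submodule.mem_sup.1 (mem_sbox.1 hy q)
      choose u hu u' hu' huu using hy'
      choose x hx hxe using hu
      choose x' hx' hxe' using hu'
      refine Submodule.mem_sup.2 ⟨_, ⟨U.symm (WithLp.toLp 2 x), mem_sbox.2 fun q => by
        rw [U.apply_symm_apply]; exact hx q, rfl⟩, _, ⟨U'.symm (WithLp.toLp 2 x'),
        mem_sbox.2 fun q => by rw [U'.apply_symm_apply]; exact hx' q, rfl⟩,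
        U''.injective (PiLp.ext fun q => ?_)⟩
      simp only [LinearIsometry.coe_toLinearMap] at hxe hxe' ⊢
      rw [map_add, PiLp.add_apply, hi, hi', U.apply_symm_apply, U'.apply_symm_apply]
      rw [show j (x q) = u q from hxe q, show j' (x' q) = u' q from hxe' q, huu]
    · rintro _ ⟨v, hv, rfl⟩
      exact mem_sbox.2 fun q => Submodule.mem_sup_left ⟨_, mem_sbox.1 hv q, (hi v q).symm⟩
    · rintro _ ⟨v, hv, rfl⟩
      exact mem_sbox.2 fun q => Submodule.mem_sup_right ⟨_, mem_sbox.1 hv q, (hi' v q).symm⟩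
  have hP : ∀ v, (sbox U'' F'').starProjection (i v) = i ((sbox U F).starProjection v) := fun v => by
    simp only [hbox]; exact map_proj_eq i i' horthL _ _ v
  have hP' : ∀ v, (sbox U'' F'').starProjection (i' v) = i' ((sbox U' F').starProjection v) :=
    fun v => by
      simp only [hbox, sup_comm (a := (sbox U F).map i.toLinearMap)]
      exact map_proj_eq i' i horth' _ _ v
  have gk'' : Good U'' F'' k'' := by
    refine ⟨d'', hd'', fun t ht => ⟨hbd'' t ht, lt_of_le_of_lt ?_ l3⟩⟩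
    refine ContinuousLinearMap.opNorm_le_bound _ (by positivity) fun y => ?_
    obtain ⟨x, x', rfl⟩ := hspanL y
    have e : (k'' t - (sbox U'' F'').starProjection.comp (k'' t)) (i x + i' x') =
        i ((k t - (sbox U F).starProjection.comp (k t)) x) +
          i' ((k' t - (sbox U' F').starProjection.comp (k' t)) x') := by
      simp only [_root_.sub_apply, ContinuousLinearMap.comp_apply, map_add, ek t ht, ek' t ht, hP,
        hP', map_sub]
    have hn : ‖x‖ ≤ ‖i x + i' x'‖ ∧ ‖x'‖ ≤ ‖i x + i' x'‖ := by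
      have h2 : ‖i x + i' x'‖ * ‖i x + i' x'‖ = ‖x‖ * ‖x‖ + ‖x'‖ * ‖x'‖ := by
        rw [norm_add_sq_eq_norm_sq_add_norm_sq_of_inner_eq_zero _ _ (horthL x x'), i.norm_map,
          i'.norm_map]
      constructor <;> nlinarith [norm_nonneg x, norm_nonneg x', norm_nonneg (i x + i' x')]
    rw [e]
    refine (norm_add_le _ _).trans ?_
    rw [i.norm_map, i'.norm_map]
    have t1 := ((k t - (sbox U F).starProjection.comp (k t)).le_opNorm x).trans
      (mul_le_mul (hFb _ ⟨t, ht, rfl⟩) hn.1 (norm_nonneg _) hε0.le)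
    have t2 := ((k' t - (sbox U' F').starProjection.comp (k' t)).le_opNorm x').trans
      (mul_le_mul (hFb' _ ⟨t, ht, rfl⟩) hn.2 (norm_nonneg _) hε0.le)
    linarith
  refine hasInv_of_windIn hQ hk'' gk'' (((hz F hF gk).mul (hz' F' hF' gk')).congr
    (fun t ht => ?_) ?_)
  · exact (Det_sum i i' horthL _ _ _ hbox (ek t ht) (ek' t ht)).symm
  · exact (Det_sum j j' horth _ _ _ rfl ec ec').symm

/-- Invariance under isometric isomorphisms. -/
theorem hasInv_iso (hQ : 0 < Q) {U : Slots Q L B} {U'' : Slots Q L'' B''}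
    (e : L ≃ₗᵢ[ℂ] L'') (eb : B ≃ₗᵢ[ℂ] B'') (hi : ∀ v q, U'' (e v) q = eb (U v q))
    {k : ℝ → (L →L[ℂ] L)} {k'' : ℝ → (L'' →L[ℂ] L'')}
    {c : B →L[ℂ] B} {c'' : B'' →L[ℂ] B''} (hk : IsPath U k c) (hk'' : IsPath U'' k'' c'')
    (ek : ∀ t ∈ Icc (0 : ℝ) 1, ∀ v, k'' t (e v) = e (k t v))
    (ec : ∀ x, c'' (eb x) = eb (c x)) {z : ZMod Q} (hz : HasInv U k c z) :
    HasInv U'' k'' c'' z := by
  obtain ⟨d, hd, hb⟩ := hk.bdd
  obtain ⟨d'', hd'', hb''⟩ := hk''.bdd
  obtain ⟨F, hF, hFb⟩ := exists_sbox_approx U (isCompact_Icc.image_of_continuousOn hk.cont)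
    (by rintro _ ⟨t, ht, rfl⟩; exact hk.compact t ht) (half_pos (lt_min hd hd''))
  have hε : min d d'' / 2 < d ∧ min d d'' / 2 < d'' := by
    constructor <;> linarith [min_le_left d d'', min_le_right d d'', lt_min hd hd'']
  have gk : Good U F k := ⟨d, hd, fun t ht => ⟨hb t ht, (hFb _ ⟨t, ht, rfl⟩).trans_lt hε.1⟩⟩
  let F'' : Submodule ℂ B'' := F.map eb.toLinearIsometry.toLinearMap
  have hbox : sbox U'' F'' = (sbox U F).map e.toLinearIsometry.toLinearMap := by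
    refine le_antisymm ?_ ?_
    · intro y hy
      refine ⟨e.symm y, mem_sbox.2 fun q => ?_, e.apply_symm_apply y⟩
      obtain ⟨a, ha, hae⟩ := mem_sbox.1 hy q
      have h1 : eb (U (e.symm y) q) = eb a := by
        rw [← hi, e.apply_symm_apply]; exact hae.symm
      rwa [eb.injective h1]
    · rintro _ ⟨v, hv, rfl⟩
      exact mem_sbox.2 fun q => ⟨_, mem_sbox.1 hv q, (hi v q).symm⟩
  have hP : ∀ v, (sbox U'' F'').starProjection (e v) = e ((sbox U F).starProjection v) := fun v => by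
    simp only [hbox]
    exact (e.toLinearIsometry.map_starProjection (sbox U F) v).symm
  have hPb : ∀ v, F''.starProjection (eb v) = eb (F.starProjection v) := fun v =>
    (eb.toLinearIsometry.map_starProjection F v).symm
  have gk'' : Good U'' F'' k'' := by
    refine ⟨d'', hd'', fun t ht => ⟨hb'' t ht, lt_of_le_of_lt ?_ hε.2⟩⟩
    refine ContinuousLinearMap.opNorm_le_bound _ (by positivity) fun y => ?_
    obtain ⟨x, rfl⟩ := e.surjective y
    have he : (k'' t - (sbox U'' F'').starProjection.comp (k'' t)) (e x) =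
        e ((k t - (sbox U F).starProjection.comp (k t)) x) := by
      simp only [_root_.sub_apply, ContinuousLinearMap.comp_apply, ek t ht, hP, map_sub]
    rw [he, e.norm_map, e.norm_map]
    exact ((k t - _).le_opNorm x).trans
      (mul_le_mul_of_nonneg_right (hFb _ ⟨t, ht, rfl⟩) (norm_nonneg _))
  refine hasInv_of_windIn hQ hk'' gk'' ((hz F hF gk).congr (fun t ht => ?_) ?_)
  · refine (Det_equiv (sbox U F) ((e.toLinearEquiv.submoduleMap (sbox U F)).trans
      (LinearEquiv.ofEq _ _ (by rw [hbox]; rfl))) fun x => Subtype.ext ?_).symm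
    rw [coe_compr]
    show e (x : L) + (sbox U'' F'').starProjection (k'' t (e x)) = e (compr (sbox U F) (k t) x : L)
    rw [ek t ht, hP, coe_compr, map_add]
  · refine (Det_equiv F ((eb.toLinearEquiv.submoduleMap F).trans
      (LinearEquiv.ofEq _ F'' rfl)) fun x => Subtype.ext ?_).symm
    rw [coe_compr]
    show eb (x : B) + F''.starProjection (c'' (eb x)) = eb (compr F c x : B)
    rw [ec, hPb, coe_compr, map_add]

end VP212.Pair
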