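import Vale.Agent.P212.Base.Pairing
import Vale.Agent.P212.Pair.InvMaps

/-!
P212, pairing: the invariant of a loop made of two idempotents is the index between them.
-/

open Set Module

namespace VP212.Pair

variable {L : Type} [NormedAddCommGroup L] [InnerProductSpace ℂ L]

/-- The number `exp (2 π i h)`. -/
noncomputable def ee (h : ℝ) : ℂ := Complex.exp (2 * Real.pi * Complex.I * h)

theorem ee_add (h h' : ℝ) : ee (h + h') = ee h * ee h' := by
  rw [ee, ee, ee, ← Complex.exp_add]; push_cast; ring_nf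

theorem ee_zero : ee 0 = 1 := by simp [ee]

theorem ee_int (m : ℤ) : ee m = 1 := by
  rw [ee, Complex.exp_eq_one_iff]; exact ⟨m, by push_cast; ring⟩

theorem ee_neg (h : ℝ) : ee (-h) = Complex.exp (-(2 * Real.pi * Complex.I * h)) := by
  rw [ee]; push_cast; ring_nf

theorem continuous_ee : Continuous ee := by unfold ee; fun_prop

/-- The rotation by an idempotent. -/
noncomputable def rot (P : L →L[ℂ] L) (h : ℝ) : L →L[ℂ] L := 1 + (ee h - 1) • P

theorem rot_mul {P : L →L[ℂ] L} (hP : P * P = P) (h h' : ℝ) :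
    rot P h * rot P h' = rot P (h + h') := by
  simp only [rot, ee_add, mul_add, add_mul, one_mul, mul_one, smul_mul_assoc, mul_smul_comm, hP,
    smul_smul]
  module

theorem rot_zero (P : L →L[ℂ] L) : rot P 0 = 1 := by simp [rot, ee_zero]

theorem rot_int (P : L →L[ℂ] L) (m : ℤ) : rot P m = 1 := by simp [rot, ee_int]

theorem rot_neg_int (P : L →L[ℂ] L) (m : ℤ) : rot P (-(m : ℝ)) = 1 := by
  rw [show (-(m : ℝ)) = ((-m : ℤ) : ℝ) by push_cast; ring, rot_int]

theorem rot_neg_mul {P : L →L[ℂ] L} (hP : P * P = P) (h : ℝ) : rot P (-h) * rot P h = 1 := by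
  rw [rot_mul hP, neg_add_cancel, rot_zero]

theorem rot_mul_neg {P : L →L[ℂ] L} (hP : P * P = P) (h : ℝ) : rot P h * rot P (-h) = 1 := by
  rw [rot_mul hP, add_neg_cancel, rot_zero]

theorem rot_apply (P : L →L[ℂ] L) (h : ℝ) (x : L) : rot P h x = x + (ee h - 1) • P x := by
  simp [rot]

theorem rot_apply_fix {P : L →L[ℂ] L} (h : ℝ) {x : L} (hx : P x = x) : rot P h x = ee h • x := by
  rw [rot_apply, hx]; module

theorem rot_apply_ker {P : L →L[ℂ] L} (h : ℝ) {x : L} (hx : P x = 0) : rot P h x = x := by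
  rw [rot_apply, hx, smul_zero, add_zero]

/-- The loop of two idempotents. -/
noncomputable def lp (P R : L →L[ℂ] L) (h : ℝ) : L →L[ℂ] L := rot P (-h) * rot R h - 1

theorem lp_zero (P R : L →L[ℂ] L) : lp P R 0 = 0 := by simp [lp, rot_zero]

theorem lp_int (P R : L →L[ℂ] L) (m : ℤ) : lp P R m = 0 := by simp [lp, rot_int, rot_neg_int]

theorem lp_inverse {P R : L →L[ℂ] L} (hP : P * P = P) (hR : R * R = R) (h : ℝ) :
    lp P R h + lp R P h + (lp R P h).comp (lp P R h) = 0 := by
  have e : rot R (-h) * rot P h * (rot P (-h) * rot R h) = 1 := by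
    rw [mul_assoc, ← mul_assoc (rot P h), rot_mul_neg hP, one_mul, rot_neg_mul hR]
  show lp P R h + lp R P h + lp R P h * lp P R h = 0
  simp only [lp, mul_sub, sub_mul, one_mul, mul_one, e]
  abel

theorem lp_eq {P R : L →L[ℂ] L} (hP : P * P = P) (h : ℝ) :
    lp P R h = rot P (-h) * ((ee h - 1) • (R - P)) := by
  have e : (ee h - 1) • (R - P) = rot R h - rot P h := by simp only [rot]; module
  rw [e, mul_sub, rot_neg_mul hP, lp]

theorem lp_compact {P R : L →L[ℂ] L} (hP : P * P = P) (hc : IsCompactOperator (R - P)) (h : ℝ) :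
    IsCompactOperator (lp P R h) := by
  rw [lp_eq hP]
  exact (hc.smul (ee h - 1)).clm_comp (rot P (-h))

theorem continuous_rot {α : Type*} [TopologicalSpace α] {P : α → (L →L[ℂ] L)} {h : α → ℝ}
    (hP : Continuous P) (hh : Continuous h) : Continuous fun x => rot (P x) (h x) :=
  continuous_const.add (((continuous_ee.comp hh).sub continuous_const).smul hP)

theorem continuous_lp {α : Type*} [TopologicalSpace α] {P R : α → (L →L[ℂ] L)} {h : α → ℝ}
    (hP : Continuous P) (hR : Continuous R) (hh : Continuous h) :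
    Continuous fun x => lp (P x) (R x) (h x) :=
  ((continuous_rot hP hh.neg).mul (continuous_rot hR hh)).sub continuous_const

variable {Q : ℕ} {B : Type*} [NormedAddCommGroup B] [InnerProductSpace ℂ B] {U : Slots Q L B}

theorem endDiag_zero : EndDiag U 0 0 := fun v q => by simp

theorem isPath_lp {P R : L →L[ℂ] L} (hP : P * P = P) (hR : R * R = R)
    (hc : IsCompactOperator (R - P)) {h : ℝ → ℝ} (hh : Continuous h) (h0 : h 0 = 0) {m : ℤ}
    (h1 : h 1 = m) : IsPath U (fun t => lp P R (h t)) 0 :=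
  isPath_of_inverse (continuous_lp continuous_const continuous_const hh).continuousOn
    (continuous_lp continuous_const continuous_const hh).continuousOn
    (fun t _ => lp_compact hP hc _) (fun t _ => lp_inverse hP hR _) (by rw [h0, lp_zero])
    (by show EndDiag U (lp P R (h 1)) 0; rw [h1, lp_int]; exact endDiag_zero)

/-- Moving the second idempotent along a segment. -/
theorem lp_segment (hQ : 0 < Q) {P A A' : L →L[ℂ] L} (hP : P * P = P) (hA : A * A = A)
    (hA' : A' * A' = A') (hAA : A * A' + A' * A = A + A') (hc : IsCompactOperator (A - P))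
    (hc' : IsCompactOperator (A' - P)) (m : ℤ) {z : ZMod Q}
    (h : HasInv U (fun t => lp P A (m * t)) 0 z) : HasInv U (fun t => lp P A' (m * t)) 0 z := by
  let S : ℝ → (L →L[ℂ] L) := fun s => (1 - (s : ℂ)) • A + (s : ℂ) • A'
  have hS : ∀ s, S s * S s = S s := fun s => by
    simp only [S, mul_add, add_mul, smul_mul_assoc, mul_smul_comm, smul_smul, hA, hA']
    have e : A' * A = A + A' - A * A' := eq_sub_of_add_eq' hAA
    rw [e]
    module
  have hSc : ∀ s, IsCompactOperator (S s - P) := fun s => by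
    have e : S s - P = (1 - (s : ℂ)) • (A - P) + (s : ℂ) • (A' - P) := by simp only [S]; module
    rw [e]
    exact (hc.smul (1 - (s : ℂ))).add (hc'.smul (s : ℂ))
  have hSd : Continuous fun x : ℝ × ℝ => S x.1 := (continuous_seg A A').comp continuous_fst
  have hm : Continuous fun x : ℝ × ℝ => (m : ℝ) * x.2 := continuous_const.mul continuous_snd
  have hh := hasInv_homotopy' (U := U) hQ (k := fun s t => lp P (S s) (m * t))
    (k' := fun s t => lp (S s) P (m * t)) (c := fun _ => 0) (z := z)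
    (continuous_lp continuous_const hSd hm).continuousOn
    (continuous_lp hSd continuous_const hm).continuousOn continuousOn_const
    (fun s _ t _ => ⟨lp_compact hP (hSc s) _, lp_inverse hP (hS s) _⟩)
    (fun s _ => by rw [mul_zero, lp_zero])
    (fun s _ => by rw [mul_one, lp_int]; exact endDiag_zero)
    (by simpa [S] using h)
  simpa [S] using hh

theorem isCompact_starProjection (E : Submodule ℂ L) [FiniteDimensional ℂ E] :
    IsCompactOperator E.starProjection := by
  have : ProperSpace E := FiniteDimensional.proper_rclike ℂ E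
  refine ⟨(E.subtypeL) '' Metric.closedBall 0 1,
    (isCompact_closedBall _ _).image E.subtypeL.continuous, ?_⟩
  refine Filter.mem_of_superset (Metric.closedBall_mem_nhds (0 : L) one_pos) fun x hx => ?_
  refine ⟨E.orthogonalProjectionOnto x, ?_, rfl⟩
  rw [mem_closedBall_zero_iff] at hx ⊢
  exact (E.norm_orthogonalProjectionOnto_apply_le x).trans hx

/-- The loop of `P` and `R` winds by the index of `P` from the range of `R` to the range of `P`. -/
theorem hasInv_loop [CompleteSpace L] (hQ : 0 < Q) {P R : L →L[ℂ] L} (hP : P * P = P)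
    (hR : R * R = R) (hc : IsCompactOperator (R - P)) {κ : ℤ}
    (hκ : HasIndexBetween R P (1 : L →L[ℂ] L) κ) (m : ℤ) :
    HasInv U (fun t => lp P R (m * t)) 0 ((m * κ : ℤ) : ZMod Q) := by
  obtain ⟨Lk, hLk, hker, hcok, hidx⟩ := hκ
  have pP : ∀ x, P (P x) = P x := fun x => congrArg (fun T : L →L[ℂ] L => T x) hP
  have pR : ∀ x, R (R x) = R x := fun x => congrArg (fun T : L →L[ℂ] L => T x) hR
  have memR : ∀ x, x ∈ LinearMap.range (R : L →ₗ[ℂ] L) ↔ R x = x :=
    fun x => ⟨by rintro ⟨y, rfl⟩; exact pR y, fun h => ⟨x, h⟩⟩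
  have memP : ∀ x, x ∈ LinearMap.range (P : L →ₗ[ℂ] L) ↔ P x = x :=
    fun x => ⟨by rintro ⟨y, rfl⟩; exact pP y, fun h => ⟨x, h⟩⟩
  obtain ⟨C, hC⟩ := Submodule.exists_isCompl (LinearMap.range Lk)
  have hCf : FiniteDimensional ℂ C :=
    Module.Finite.equiv (Submodule.quotientEquivOfIsCompl _ C hC)
  have hCd : finrank ℂ (LinearMap.range (P : L →ₗ[ℂ] L) ⧸ LinearMap.range Lk) = finrank ℂ C :=
    (Submodule.quotientEquivOfIsCompl _ C hC).finrank_eq
  let N : Submodule ℂ L := (LinearMap.ker Lk).map (LinearMap.range (R : L →ₗ[ℂ] L)).subtype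
  let N' : Submodule ℂ L := C.map (LinearMap.range (P : L →ₗ[ℂ] L)).subtype
  have hNd : finrank ℂ N = finrank ℂ (LinearMap.ker Lk) := Submodule.finrank_map_subtype_eq _ _
  have hN'd : finrank ℂ N' = finrank ℂ C := Submodule.finrank_map_subtype_eq _ _
  have nN : ∀ n ∈ N, R n = n ∧ P n = 0 := by
    rintro _ ⟨⟨x, hx⟩, hk, rfl⟩
    refine ⟨(memR x).1 hx, ?_⟩
    have := congrArg Subtype.val (LinearMap.mem_ker.1 hk)
    rw [hLk] at this
    exact this
  have nN' : ∀ y ∈ N', P y = y := by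
    rintro _ ⟨⟨x, hx⟩, -, rfl⟩; exact (memP x).1 hx
  let T : L →L[ℂ] L := N.starProjection * (1 - P)
  have Tmem : ∀ h, T h ∈ N := fun h => Submodule.starProjection_apply_mem _ _
  have Tn : ∀ n ∈ N, T n = n := fun n hn => by
    show N.starProjection ((1 - P) n) = n
    rw [_root_.sub_apply, one_apply_eq_self, (nN n hn).2, sub_zero]
    exact Submodule.starProjection_eq_self_iff.2 hn
  have TP : ∀ x, T (P x) = 0 := fun x => by
    show N.starProjection ((1 - P) (P x)) = 0
    rw [_root_.sub_apply, one_apply_eq_self, pP, sub_self, map_zero]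
  let R0 : Submodule ℂ L := LinearMap.ker ((1 - R : L →L[ℂ] L) : L →ₗ[ℂ] L) ⊓
    LinearMap.ker (T : L →ₗ[ℂ] L)
  have memR0 : ∀ x, x ∈ R0 ↔ R x = x ∧ T x = 0 := fun x => by
    show ((1 - R : L →L[ℂ] L) x = 0 ∧ T x = 0) ↔ _
    rw [_root_.sub_apply, one_apply_eq_self, sub_eq_zero, eq_comm (a := x)]
  let Rp : Submodule ℂ L := LinearMap.ker ((1 - P : L →L[ℂ] L) : L →ₗ[ℂ] L)
  have memRp : ∀ x, x ∈ Rp ↔ P x = x := fun x => by
    show (1 - P : L →L[ℂ] L) x = 0 ↔ _
    rw [_root_.sub_apply, one_apply_eq_self, sub_eq_zero, eq_comm]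
  haveI : CompleteSpace R0 :=
    ((ContinuousLinearMap.isClosed_ker (1 - R)).inter
      (ContinuousLinearMap.isClosed_ker T)).completeSpace_coe
  haveI : CompleteSpace Rp := (ContinuousLinearMap.isClosed_ker (1 - P)).completeSpace_coe
  haveI : CompleteSpace N' := FiniteDimensional.complete ℂ N'
  have hΦm : ∀ v : R0 × N', P (v.1 : L) + (v.2 : L) ∈ Rp := fun v => by
    rw [memRp, map_add, pP, nN' _ v.2.2]
  let Φ : (R0 × N') →L[ℂ] Rp :=
    ((P.comp R0.subtypeL).comp (ContinuousLinearMap.fst ℂ R0 N') +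
      N'.subtypeL.comp (ContinuousLinearMap.snd ℂ R0 N')).codRestrict Rp hΦm
  have Φv : ∀ v : R0 × N', (Φ v : L) = P v.1 + v.2 := fun v => rfl
  have hinj : ∀ v : R0 × N', Φ v = 0 → v = 0 := by
    rintro ⟨⟨x, hx⟩, ⟨y, hy⟩⟩ hv
    have h0 : P x + y = 0 := congrArg Subtype.val hv
    obtain ⟨c, hcC, hcy⟩ := hy
    have hxR : x ∈ LinearMap.range (R : L →ₗ[ℂ] L) := (memR x).2 ((memR0 x).1 hx).1
    have hce : c = -Lk ⟨x, hxR⟩ := Subtype.ext (by
      have h2 : (c : L) = y := hcy
      simp only [Submodule.coe_neg, hLk, one_apply_eq_self, h2]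
      exact eq_neg_of_add_eq_zero_right h0)
    have hc0 : c = 0 := (Submodule.disjoint_def.1 hC.disjoint) c
      (hce ▸ Submodule.neg_mem _ (LinearMap.mem_range_self _ _)) hcC
    have hy0 : y = 0 := by rw [← hcy, hc0]; rfl
    subst hy0
    rw [add_zero] at h0
    have hxN : x ∈ N := ⟨⟨x, hxR⟩, Subtype.ext (by rw [hLk]; exact h0), rfl⟩
    have : x = 0 := (Tn x hxN).symm.trans ((memR0 x).1 hx).2
    subst this; rfl
  have hsurj : ∀ w : Rp, ∃ v, Φ v = w := by
    rintro ⟨w, hw⟩
    have hwP : w ∈ LinearMap.range (P : L →ₗ[ℂ] L) := (memP w).2 ((memRp w).1 hw)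
    obtain ⟨_, ⟨r, rfl⟩, c, hcC, hsum⟩ :=
      Submodule.mem_sup.1 (hC.sup_eq_top ▸ Submodule.mem_top (x := (⟨w, hwP⟩ : LinearMap.range
        (P : L →ₗ[ℂ] L))))
    have hx : (r : L) - T r ∈ R0 := (memR0 _).2 ⟨by
      rw [map_sub, (memR _).1 r.2, (nN _ (Tmem _)).1], by rw [map_sub, Tn _ (Tmem _), sub_self]⟩
    refine ⟨(⟨_, hx⟩, ⟨c, ⟨c, hcC, rfl⟩⟩), Subtype.ext ?_⟩
    rw [Φv]
    show P ((r : L) - T r) + (c : L) = w
    rw [map_sub, (nN _ (Tmem _)).2, sub_zero]
    have := congrArg Subtype.val hsum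
    rw [Submodule.coe_add, hLk] at this
    exact this
  let Ψ := ContinuousLinearEquiv.ofBijective Φ (LinearMap.ker_eq_bot'.2 hinj)
    (LinearMap.range_eq_top.2 hsurj)
  let X : L →L[ℂ] L := R0.subtypeL.comp ((ContinuousLinearMap.fst ℂ R0 N').comp
    (Ψ.symm.toContinuousLinearMap.comp (P.codRestrict Rp fun h => (memRp _).2 (pP h))))
  have Xmem : ∀ h, X h ∈ R0 := fun h => SetLike.coe_mem _
  have Xex : ∀ h, ∃ y ∈ N', P (X h) + y = P h := fun h => by
    refine ⟨_, (Ψ.symm ⟨P h, (memRp _).2 (pP h)⟩).2.2, ?_⟩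
    exact congrArg Subtype.val (Ψ.apply_symm_apply ⟨P h, (memRp _).2 (pP h)⟩)
  have Xuniq : ∀ h x y, x ∈ R0 → y ∈ N' → P x + y = P h → X h = x := fun h x y hx hy e => by
    have : Ψ.symm ⟨P h, (memRp _).2 (pP h)⟩ = (⟨x, hx⟩, ⟨y, hy⟩) := by
      rw [ContinuousLinearEquiv.symm_apply_eq]; exact Subtype.ext e.symm
    show (((Ψ.symm ⟨P h, (memRp _).2 (pP h)⟩).1 : R0) : L) = x
    rw [this]
  have XP : ∀ h, X (P h) = X h := fun h => by
    obtain ⟨y, hy, e⟩ := Xex h
    exact Xuniq _ _ y (Xmem h) hy (by rw [pP]; exact e)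
  have Xn : ∀ n ∈ N, X n = 0 := fun n hn =>
    Xuniq n 0 0 (zero_mem _) (zero_mem _) (by rw [map_zero, add_zero, (nN n hn).2])
  have Xx : ∀ x ∈ R0, X x = x := fun x hx => Xuniq x x 0 hx (zero_mem _) (add_zero _)
  let R2 : L →L[ℂ] L := X + T
  let P2 : L →L[ℂ] L := P * X + T
  have R2fix : ∀ r, R r = r → R2 r = r := fun r hr => by
    have hx : r - T r ∈ R0 := (memR0 _).2 ⟨by rw [map_sub, hr, (nN _ (Tmem _)).1],
      by rw [map_sub, Tn _ (Tmem _), sub_self]⟩
    have h1 : X r = r - T r := by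
      have := Xx _ hx
      rwa [map_sub, Xn _ (Tmem _), sub_zero] at this
    show X r + T r = r
    rw [h1]; abel
  have RR2 : R * R2 = R2 := ContinuousLinearMap.ext fun h => by
    show R (X h + T h) = X h + T h
    rw [map_add, ((memR0 _).1 (Xmem h)).1, (nN _ (Tmem h)).1]
  have R2R : R2 * R = R := ContinuousLinearMap.ext fun h => R2fix _ (pR h)
  have R2R2 : R2 * R2 = R2 := ContinuousLinearMap.ext fun h =>
    R2fix (R2 h) (congrArg (fun S : L →L[ℂ] L => S h) RR2)
  have key : ∀ h, X (P (X h) + T h) = X h ∧ T (P (X h) + T h) = T h := fun h => by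
    constructor
    · rw [map_add, Xn _ (Tmem h), add_zero, XP, Xx _ (Xmem h)]
    · rw [map_add, TP, zero_add, Tn _ (Tmem h)]
  have R2P2 : R2 * P2 = R2 := ContinuousLinearMap.ext fun h => by
    show X (P (X h) + T h) + T (P (X h) + T h) = X h + T h
    rw [(key h).1, (key h).2]
  have P2P2 : P2 * P2 = P2 := ContinuousLinearMap.ext fun h => by
    show P (X (P (X h) + T h)) + T (P (X h) + T h) = P (X h) + T h
    rw [(key h).1, (key h).2]
  have P2R2 : P2 * R2 = P2 := ContinuousLinearMap.ext fun h => by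
    show P (X (X h + T h)) + T (X h + T h) = P (X h) + T h
    rw [map_add X, map_add T, Xn _ (Tmem h), Xx _ (Xmem h), ((memR0 _).1 (Xmem h)).2,
      Tn _ (Tmem h), add_zero, zero_add]
  let E : Submodule ℂ L := N ⊔ N'
  have hD : ∀ h, P2 h - P h ∈ E := fun h => by
    obtain ⟨y, hy, e⟩ := Xex h
    show P (X h) + T h - P h ∈ E
    rw [← e, show P (X h) + T h - (P (X h) + y) = T h + -y by abel]
    exact Submodule.add_mem _ (Submodule.mem_sup_left (Tmem h))
      (Submodule.mem_sup_right (Submodule.neg_mem _ hy))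
  have hc2 : IsCompactOperator (P2 - P) := by
    have e : P2 - P = E.starProjection.comp (P2 - P) := ContinuousLinearMap.ext fun h =>
      (Submodule.starProjection_eq_self_iff.2 (hD h)).symm
    rw [e]
    exact (isCompact_starProjection E).comp_clm (P2 - P)
  have hc1 : IsCompactOperator (R2 - P) := by
    have e : R2 - P = (R - P) + (X.comp ((-(R - P)).comp (1 - R)) +
        N.starProjection.comp ((1 - P) * (1 - R))) := by
      refine ContinuousLinearMap.ext fun h => ?_
      have h1 : R2 (R h) = R h := R2fix _ (pR h)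
      show R2 h - P h = (R h - P h) + (X ((-(R - P)) ((1 - R) h)) + T ((1 - R) h))
      have h2 : (-(R - P)) ((1 - R) h) = P ((1 - R) h) := by
        simp [pR]
      rw [h2, XP]
      show R2 h - P h = (R h - P h) + R2 ((1 - R) h)
      rw [_root_.sub_apply, one_apply_eq_self, map_sub, h1]
      abel
    rw [e]
    exact hc.add (((hc.neg.comp_clm (1 - R)).clm_comp X).add
      ((isCompact_starProjection N).comp_clm ((1 - P) * (1 - R))))
  refine lp_segment hQ hP R2R2 hR (by rw [R2R, RR2, add_comm]) hc1 hc m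
    (lp_segment hQ hP P2P2 R2R2 (by rw [P2R2, R2P2]) hc2 hc1 m ?_)
  -- the loop of `P` and `P2` lives on `E`
  obtain ⟨F, hF, hle⟩ := exists_box_ge (E.map U.toLinearIsometry.toLinearMap)
  have hEF : E ≤ sbox U F := fun v hv => mem_sbox.2 fun q => hle ⟨v, hv, rfl⟩ q
  have hinv : ∀ (w : ℝ) v, v ∈ E → rot P w v ∈ E := fun w v hv => by
    obtain ⟨n, hn, y, hy, rfl⟩ := Submodule.mem_sup.1 hv
    rw [map_add, rot_apply_ker _ (nN n hn).2, rot_apply_fix _ (nN' y hy)]
    exact Submodule.add_mem _ (Submodule.mem_sup_left hn)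
      (Submodule.mem_sup_right (Submodule.smul_mem _ _ hy))
  have hrange : ∀ w x, lp P P2 w x ∈ E := fun w x => by
    rw [lp_eq hP]
    exact hinv _ _ (Submodule.smul_mem _ _ (hD x))
  have hp := isPath_lp (U := U) hP P2P2 hc2 (h := fun t => (m : ℝ) * t)
    (continuous_const.mul continuous_id) (mul_zero _) (mul_one _)
  have hg : Good U F (fun t => lp P P2 ((m : ℝ) * t)) := by
    obtain ⟨δ, hδ, hb⟩ := hp.bdd
    refine ⟨δ, hδ, fun t ht => ⟨hb t ht, ?_⟩⟩
    have e : lp P P2 ((m : ℝ) * t) - (sbox U F).starProjection.comp (lp P P2 ((m : ℝ) * t)) = 0 :=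
      sub_eq_zero.2 (ContinuousLinearMap.ext fun x =>
        (Submodule.starProjection_eq_self_iff.2 (hEF (hrange _ x))).symm)
    rw [e, norm_zero]; exact hδ
  refine hasInv_of_windIn hQ hp hg ?_
  have hdet : ∀ w, Det (sbox U F) (lp P P2 w) = ee w ^ finrank ℂ N * ee (-w) ^ finrank ℂ N' := by
    intro w
    rw [Det_mono E hEF (hrange w)]
    let φ : (N × N') →ₗ[ℂ] E := (Submodule.inclusion le_sup_left).coprod
      (Submodule.inclusion le_sup_right)
    have φv : ∀ v : N × N', (φ v : L) = v.1 + v.2 := fun v => rfl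
    have hi : Function.Injective φ := by
      refine (injective_iff_map_eq_zero _).2 ?_
      rintro ⟨⟨n, hn⟩, ⟨y, hy⟩⟩ hv
      have h0 : n + y = 0 := congrArg Subtype.val hv
      have h1 : P (n + y) = 0 := by rw [h0, map_zero]
      rw [map_add, (nN n hn).2, zero_add, nN' y hy] at h1
      subst h1
      rw [add_zero] at h0
      subst h0; rfl
    have hs : Function.Surjective φ := by
      rintro ⟨v, hv⟩
      obtain ⟨n, hn, y, hy, e⟩ := Submodule.mem_sup.1 hv
      exact ⟨(⟨n, hn⟩, ⟨y, hy⟩), Subtype.ext e⟩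
    let e := LinearEquiv.ofBijective φ ⟨hi, hs⟩
    have hcm : compr E (lp P P2 w) = (e : (N × N') →ₗ[ℂ] E) ∘ₗ
        LinearMap.prodMap (ee w • LinearMap.id) (ee (-w) • LinearMap.id) ∘ₗ
          (e.symm : E →ₗ[ℂ] (N × N')) := by
      refine LinearMap.ext fun x => ?_
      obtain ⟨v, rfl⟩ := e.surjective x
      simp only [LinearMap.comp_apply, LinearEquiv.coe_coe, e.symm_apply_apply]
      refine Subtype.ext ?_
      rw [coe_compr, Submodule.starProjection_eq_self_iff.2 (hrange w _),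
        show (e v : L) = v.1 + v.2 from rfl]
      show (v.1 : L) + v.2 + (rot P (-w) (rot P2 w (v.1 + v.2)) - ((v.1 : L) + v.2)) =
        ee w • (v.1 : L) + ee (-w) • (v.2 : L)
      have f1 : P2 (v.1 : L) = v.1 := by
        show P (X _) + T _ = _
        rw [Xn _ v.1.2, map_zero, zero_add, Tn _ v.1.2]
      have f2 : P2 (v.2 : L) = 0 := by
        show P (X _) + T _ = 0
        rw [Xuniq (v.2 : L) 0 v.2 (zero_mem _) v.2.2 (by rw [map_zero, zero_add, nN' _ v.2.2]),
          map_zero, zero_add]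
        conv_lhs => rw [← nN' _ v.2.2]
        exact TP _
      rw [map_add (rot P2 w), rot_apply_fix w f1, rot_apply_ker w f2, map_add, map_smul,
        rot_apply_ker _ (nN _ v.1.2).2, rot_apply_fix _ (nN' _ v.2.2)]
      abel
    rw [Det, hcm, LinearMap.det_conj, LinearMap.det_prodMap, LinearMap.det_smul,
      LinearMap.det_smul, LinearMap.det_id, LinearMap.det_id, mul_one, mul_one]
  have hκ' : κ = (finrank ℂ N : ℤ) - finrank ℂ N' := by rw [hNd, hN'd, ← hCd, hidx]
  refine ⟨fun t => ((m * κ : ℤ) : ℂ) * (2 * Real.pi * Complex.I) * t, 0, m * κ,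
    (by fun_prop : Continuous _).continuousOn, fun t _ => ?_,
    by rw [Complex.exp_zero, Det_zero], ?_, rfl⟩
  · show _ = Det (sbox U F) (lp P P2 ((m : ℝ) * t))
    rw [hdet, ee_neg, ee, ← Complex.exp_nat_mul, ← Complex.exp_nat_mul, ← Complex.exp_add, hκ']
    push_cast; ring_nf
  · push_cast; ring

end VP212.Pair
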