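import Vale.Agent.P212.Pair.Hom
import Vale.Agent.P212.Pair.Idem

/-!
P212, pairing: the value of the pairing on a module that sees a loop.
-/

open Set Module

namespace VP212.Pair

theorem idem_conj {H L : Type} [NormedAddCommGroup H] [InnerProductSpace ℂ H]
    [NormedAddCommGroup L] [InnerProductSpace ℂ L] {a : H →L[ℂ] L} {a' : L →L[ℂ] H}
    (ha : ∀ x, a' (a x) = x) (P C : H →L[ℂ] H) :
    a.comp (P.comp a') * a.comp (C.comp a') = a.comp ((P * C).comp a') :=
  ContinuousLinearMap.ext fun x => by simp [ha]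

/-- Transport of the index between ranges. -/
theorem hasIndexBetween_conj {H H' L : Type} [NormedAddCommGroup H] [InnerProductSpace ℂ H]
    [NormedAddCommGroup H'] [InnerProductSpace ℂ H'] [NormedAddCommGroup L] [InnerProductSpace ℂ L]
    {a : H →L[ℂ] L} {a' : L →L[ℂ] H} {b : H' →L[ℂ] L} {b' : L →L[ℂ] H'}
    (ha : ∀ x, a' (a x) = x) (hb : ∀ x, b' (b x) = x) {T : H →L[ℂ] H'}
    (hT : ∀ x, b' (a x) = T x) {P : H →L[ℂ] H} {P' : H' →L[ℂ] H'} (hP : P * P = P) {k : ℤ}
    (h : HasIndexBetween P P' T k) :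
    HasIndexBetween (a.comp (P.comp a')) (b.comp (P'.comp b')) (1 : L →L[ℂ] L) k := by
  obtain ⟨Lk, hLk, hker, hcok, hidx⟩ := h
  let mk : ∀ {H : Type} [NormedAddCommGroup H] [InnerProductSpace ℂ H] (a : H →L[ℂ] L)
      (a' : L →L[ℂ] H) (_ : ∀ x, a' (a x) = x) (P : H →L[ℂ] H),
      LinearMap.range (P : H →ₗ[ℂ] H) ≃ₗ[ℂ]
        LinearMap.range ((a.comp (P.comp a') : L →L[ℂ] L) : L →ₗ[ℂ] L) := fun {H} _ _ a a' ha P =>
    { toFun := fun x => ⟨a x.1, by
        obtain ⟨y, hy⟩ := x.2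
        exact ⟨a y, by show a (P (a' (a y))) = a x.1; rw [ha]; exact congrArg a hy⟩⟩
      invFun := fun y => ⟨a' y.1, by
        obtain ⟨z, hz⟩ := y.2
        exact ⟨a' z, by
          have := congrArg a' hz
          simp only [ContinuousLinearMap.coe_coe, ContinuousLinearMap.comp_apply, ha] at this
          exact this⟩⟩
      map_add' := fun x y => Subtype.ext (map_add a x.1 y.1)
      map_smul' := fun c x => Subtype.ext (map_smul a c x.1)
      left_inv := fun x => Subtype.ext (ha x.1)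
      right_inv := fun y => Subtype.ext (by
        obtain ⟨z, hz⟩ := y.2
        show a (a' y.1) = y.1
        rw [← hz]
        simp [ha]) }
  let e0 := mk a a' ha P
  let e1 := mk b b' hb P'
  let L' := e1.toLinearMap ∘ₗ Lk ∘ₗ e0.symm.toLinearMap
  have hk : LinearMap.ker L' = (LinearMap.ker Lk).map e0.toLinearMap := by
    ext x; constructor
    · intro hx
      refine ⟨e0.symm x, ?_, e0.apply_symm_apply x⟩
      exact e1.map_eq_zero_iff.1 hx
    · rintro ⟨y, hy, rfl⟩
      show e1 (Lk (e0.symm (e0 y))) = 0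
      rw [e0.symm_apply_apply, LinearMap.mem_ker.1 hy, map_zero]
  have hr : (LinearMap.range Lk).map e1.toLinearMap = LinearMap.range L' := by
    ext x; constructor
    · rintro ⟨_, ⟨y, rfl⟩, rfl⟩
      exact ⟨e0 y, congrArg (fun z => e1 (Lk z)) (e0.symm_apply_apply y)⟩
    · rintro ⟨y, rfl⟩
      exact ⟨_, LinearMap.mem_range_self _ (e0.symm y), rfl⟩
  let ek : LinearMap.ker Lk ≃ₗ[ℂ] LinearMap.ker L' :=
    (e0.submoduleMap (LinearMap.ker Lk)).trans (LinearEquiv.ofEq _ _ hk.symm)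
  let eq := Submodule.Quotient.equiv (LinearMap.range Lk) (LinearMap.range L') e1 hr
  refine ⟨L', fun y => ?_, Module.Finite.equiv ek, Module.Finite.equiv eq,
    by rw [← ek.finrank_eq, ← eq.finrank_eq]; exact hidx⟩
  obtain ⟨x, rfl⟩ := e0.surjective y
  show b ((Lk (e0.symm (e0 x))).1) = b (P' (b' (a x.1)))
  rw [e0.symm_apply_apply, hLk, hT]

variable {L : Type} [NormedAddCommGroup L] [InnerProductSpace ℂ L]

theorem quasi_mul {x x' y y' : L →L[ℂ] L} (hx : x + x' + x'.comp x = 0)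
    (hy : y + y' + y'.comp y = 0) :
    x + y + x.comp y + (y' + x' + y'.comp x') + (y' + x' + y'.comp x').comp (x + y + x.comp y) = 0 := by
  simp only [← ContinuousLinearMap.mul_def] at hx hy ⊢
  have e : x + y + x * y + (y' + x' + y' * x') + (y' + x' + y' * x') * (x + y + x * y) =
      (y + y' + y' * y) + ((x + x' + x' * x) + y' * (x + x' + x' * x)) +
        ((x + x' + x' * x) * y + y' * (x + x' + x' * x) * y) := by
    noncomm_ring
  rw [e, hx, hy]
  simp

/-- The conjugated loop. -/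
noncomputable def lpA (S P R : L →L[ℂ] L) (g h : ℝ) : L →L[ℂ] L :=
  rot S g * lp P R h * rot S (-g)

theorem lpA_inverse {S P R : L →L[ℂ] L} (hS : S * S = S) (hP : P * P = P) (hR : R * R = R)
    (g h : ℝ) : lpA S P R g h + lpA S R P g h + (lpA S R P g h).comp (lpA S P R g h) = 0 := by
  have h0 := lp_inverse hP hR h
  rw [← ContinuousLinearMap.mul_def] at h0 ⊢
  have e : lpA S R P g h * lpA S P R g h = rot S g * (lp R P h * lp P R h) * rot S (-g) := by
    simp only [lpA, mul_assoc]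
    rw [← mul_assoc (rot S (-g)) (rot S g), rot_neg_mul hS, one_mul]
  rw [e, lpA, lpA, ← add_mul, ← mul_add, ← add_mul, ← mul_add, h0, mul_zero, zero_mul]

theorem continuous_lpA {α : Type*} [TopologicalSpace α] (S P R : L →L[ℂ] L) {g h : α → ℝ}
    (hg : Continuous g) (hh : Continuous h) : Continuous fun x => lpA S P R (g x) (h x) :=
  ((continuous_rot continuous_const hg).mul
    (continuous_lp continuous_const continuous_const hh)).mul
      (continuous_rot continuous_const hg.neg)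

theorem lpA_compact {S P R : L →L[ℂ] L} (hP : P * P = P) (hc : IsCompactOperator (R - P))
    (g h : ℝ) : IsCompactOperator (lpA S P R g h) :=
  ((lp_compact hP hc h).clm_comp (rot S g)).comp_clm (rot S (-g))

/-- The total loop of two pairs of idempotents. -/
noncomputable def lpT (P R S T : L →L[ℂ] L) (h : ℝ) : L →L[ℂ] L :=
  lpA S P R h h + lp S T (-h) + (lpA S P R h h).comp (lp S T (-h))

/-- The inverse of the total loop. -/
noncomputable def lpT' (P R S T : L →L[ℂ] L) (h : ℝ) : L →L[ℂ] L :=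
  lp T S (-h) + lpA S R P h h + (lp T S (-h)).comp (lpA S R P h h)

variable {Q : ℕ} {B : Type*} [NormedAddCommGroup B] [InnerProductSpace ℂ B] {U : Slots Q L B}

/-- The invariant of the total loop. -/
theorem hasInv_total [CompleteSpace L] (hQ : 0 < Q) {P R S T : L →L[ℂ] L} (hP : P * P = P)
    (hR : R * R = R) (hS : S * S = S) (hT : T * T = T) (hc : IsCompactOperator (R - P))
    (hc' : IsCompactOperator (T - S)) {kP kC : ℤ}
    (hkP : HasIndexBetween R P (1 : L →L[ℂ] L) kP) (hkC : HasIndexBetween T S (1 : L →L[ℂ] L) kC)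
    {θ : ℝ → ℝ} (hθ : Continuous θ) (h0 : θ 0 = 0) {m : ℤ} (h1 : θ 1 = m) :
    HasInv U (fun t => lpT P R S T (θ t)) 0 ((m * (kP - kC) : ℤ) : ZMod Q) := by
  have hz : ∀ (g : ℝ) (n : ℤ), lpA S P R g (n : ℝ) = 0 := fun g n => by simp [lpA, lp_int]
  have hT0 : ∀ n : ℤ, lpT P R S T (n : ℝ) = 0 := fun n => by
    rw [lpT, hz, show (-(n : ℝ)) = ((-n : ℤ) : ℝ) by push_cast; ring, lp_int]; simp
  have hA : HasInv U (fun t => lpA S P R ((m : ℝ) * t) ((m : ℝ) * t)) 0 ((m * kP : ℤ) : ZMod Q) := by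
    have hm : Continuous fun x : ℝ × ℝ => (m : ℝ) * x.2 := continuous_const.mul continuous_snd
    have hg : Continuous fun x : ℝ × ℝ => x.1 * ((m : ℝ) * x.2) := continuous_fst.mul hm
    have hh := hasInv_homotopy' (U := U) hQ (z := ((m * kP : ℤ) : ZMod Q))
      (k := fun s t => lpA S P R (s * ((m : ℝ) * t)) ((m : ℝ) * t))
      (k' := fun s t => lpA S R P (s * ((m : ℝ) * t)) ((m : ℝ) * t)) (c := fun _ => 0)
      (continuous_lpA S P R hg hm).continuousOn (continuous_lpA S R P hg hm).continuousOn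
      continuousOn_const (fun s _ t _ => ⟨lpA_compact hP hc _ _, lpA_inverse hS hP hR _ _⟩)
      (fun s _ => by simp [lpA, lp_zero])
      (fun s _ => by rw [mul_one, hz]; exact endDiag_zero)
      ((hasInv_loop hQ hP hR hc hkP m).congr (fun t _ => by simp [lpA, rot_zero]) rfl)
    simpa using hh
  have hB : HasInv U (fun t => lp S T (-((m : ℝ) * t))) 0 ((-m * kC : ℤ) : ZMod Q) := by
    refine (hasInv_loop hQ hS hT hc' hkC (-m)).congr (fun t _ => ?_) rfl
    push_cast; ring_nf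
  have hm' : Continuous fun t : ℝ => (m : ℝ) * t := continuous_const.mul continuous_id
  have pA : IsPath U (fun t => lpA S P R ((m : ℝ) * t) ((m : ℝ) * t)) 0 :=
    isPath_of_inverse (continuous_lpA S P R hm' hm').continuousOn
      (continuous_lpA S R P hm' hm').continuousOn (fun t _ => lpA_compact hP hc _ _)
      (fun t _ => lpA_inverse hS hP hR _ _) (by simp [lpA, lp_zero])
      (by rw [mul_one, hz]; exact endDiag_zero)
  have pB : IsPath U (fun t => lp S T (-((m : ℝ) * t))) 0 :=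
    isPath_lp hS hT hc' (h := fun t => -((m : ℝ) * t)) hm'.neg (by simp) (m := -m) (by simp)
  have hcomp : ∀ h, IsCompactOperator (lpT P R S T h) := fun h =>
    ((lpA_compact hP hc h h).add (lp_compact hS hc' _)).add
      ((lpA_compact hP hc h h).comp_clm (lp S T (-h)))
  have hinv : ∀ h, lpT P R S T h + lpT' P R S T h + (lpT' P R S T h).comp (lpT P R S T h) = 0 :=
    fun h => quasi_mul (lpA_inverse hS hP hR h h) (lp_inverse hS hT (-h))
  have hcont : ∀ {α : Type} [TopologicalSpace α] {f : α → ℝ}, Continuous f →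
      Continuous (fun x => lpT P R S T (f x)) ∧ Continuous (fun x => lpT' P R S T (f x)) :=
    fun {α} _ {f} hf =>
      ⟨((continuous_lpA S P R hf hf).add (continuous_lp continuous_const continuous_const hf.neg)).add
          ((continuous_lpA S P R hf hf).mul (continuous_lp continuous_const continuous_const hf.neg)),
        ((continuous_lp continuous_const continuous_const hf.neg).add (continuous_lpA S R P hf hf)).add
          ((continuous_lp continuous_const continuous_const hf.neg).mul (continuous_lpA S R P hf hf))⟩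
  have pT : IsPath U (fun t => lpT P R S T ((m : ℝ) * t)) 0 :=
    isPath_of_inverse (hcont hm').1.continuousOn (hcont hm').2.continuousOn (fun t _ => hcomp _)
      (fun t _ => hinv _) (by rw [mul_zero, show (0 : ℝ) = ((0 : ℤ) : ℝ) by simp, hT0])
      (by rw [mul_one, hT0]; exact endDiag_zero)
  have e0 : (0 : B →L[ℂ] B) + 0 + (0 : B →L[ℂ] B).comp (0 : B →L[ℂ] B) = 0 := by simp
  have hp' : IsPath U (fun t => lpA S P R ((m : ℝ) * t) ((m : ℝ) * t) + lp S T (-((m : ℝ) * t)) +
      (lpA S P R ((m : ℝ) * t) ((m : ℝ) * t)).comp (lp S T (-((m : ℝ) * t))))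
      ((0 : B →L[ℂ] B) + 0 + (0 : B →L[ℂ] B).comp (0 : B →L[ℂ] B)) := by rw [e0]; exact pT
  have hprod := (hasInv_mul hQ pA pB hp' hA hB).congr
    (k' := fun t => lpT P R S T ((m : ℝ) * t)) (fun t _ => rfl) e0
  have hz2 : ((m * kP : ℤ) : ZMod Q) + ((-m * kC : ℤ) : ZMod Q) =
      ((m * (kP - kC) : ℤ) : ZMod Q) := by push_cast; ring
  rw [hz2] at hprod
  let g : ℝ → ℝ → ℝ := fun s t => (1 - s) * ((m : ℝ) * t) + s * θ t
  have hgc : Continuous fun x : ℝ × ℝ => g x.1 x.2 :=
    ((continuous_const.sub continuous_fst).mul (continuous_const.mul continuous_snd)).add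
      (continuous_fst.mul (hθ.comp continuous_snd))
  have hh := hasInv_homotopy' (U := U) hQ (z := ((m * (kP - kC) : ℤ) : ZMod Q))
    (k := fun s t => lpT P R S T (g s t)) (k' := fun s t => lpT' P R S T (g s t)) (c := fun _ => 0)
    (hcont hgc).1.continuousOn (hcont hgc).2.continuousOn continuousOn_const
    (fun s _ t _ => ⟨hcomp _, hinv _⟩)
    (fun s _ => by rw [show g s 0 = ((0 : ℤ) : ℝ) by simp [g, h0], hT0])
    (fun s _ => by
      rw [show g s 1 = (m : ℝ) by simp only [g, h1]; ring, hT0]; exact endDiag_zero)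
    (hprod.congr (fun t _ => by simp [g]) rfl)
  simpa [g] using hh

theorem eq_zero_of_endDiag (hQ : 0 < Q) {c : B →L[ℂ] B} (h : EndDiag U 0 c) : c = 0 := by
  refine ContinuousLinearMap.ext fun x => ?_
  have := h (U.symm (WithLp.toLp 2 fun _ => x)) ⟨0, hQ⟩
  rw [U.apply_symm_apply] at this
  simpa using this.symm

theorem exists_two_angles {θ : ℝ → ℝ} (hθ : Continuous θ) (h0 : θ 0 = 0) {t0 : ℝ}
    (ht0 : t0 ∈ Icc (0 : ℝ) 1) (hne : θ t0 ≠ 0) :
    ∃ s1 ∈ Icc (0 : ℝ) 1, ∃ s2 ∈ Icc (0 : ℝ) 1,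
      (ee (θ s1) - 1) * (ee (-θ s2) - 1) - (ee (θ s2) - 1) * (ee (-θ s1) - 1) ≠ 0 := by
  obtain ⟨k, hk⟩ := exists_nat_gt (8 * |θ t0| + 2)
  have hk2 : (2 : ℝ) < k := by linarith [abs_nonneg (θ t0)]
  have hkp : (0 : ℝ) < k := by linarith
  have key : ∀ c : ℝ, 0 ≤ c → c ≤ 1 → ∃ s ∈ Icc (0 : ℝ) 1, θ s = c * θ t0 := by
    intro c hc0 hc1
    obtain ⟨s, hs, e⟩ := intermediate_value_uIcc (a := 0) (b := t0) hθ.continuousOn
      (show c * θ t0 ∈ uIcc (θ 0) (θ t0) by
        rw [h0, mem_uIcc]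
        rcases le_total 0 (θ t0) with h | h
        · left; constructor <;> nlinarith
        · right; constructor <;> nlinarith)
    refine ⟨s, ?_, e⟩
    rw [uIcc_of_le ht0.1] at hs
    exact ⟨hs.1, hs.2.trans ht0.2⟩
  obtain ⟨s1, hs1, e1⟩ := key (1 / k) (by positivity) ((div_le_one hkp).2 (by linarith))
  obtain ⟨s2, hs2, e2⟩ := key (2 / k) (by positivity) ((div_le_one hkp).2 (by linarith))
  refine ⟨s1, hs1, s2, hs2, ?_⟩
  have e21 : θ s2 = θ s1 + θ s1 := by rw [e1, e2]; ring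
  have hσ : θ s1 ≠ 0 := by rw [e1]; exact mul_ne_zero (by positivity) hne
  have hσb : |θ s1| < 1 / 8 := by
    rw [e1, abs_mul, abs_of_pos (by positivity : (0 : ℝ) < 1 / k), div_mul_eq_mul_div, one_mul,
      div_lt_iff₀ hkp]
    linarith
  have ne1 : ∀ r : ℝ, r ≠ 0 → |r| < 1 → ee r ≠ 1 := fun r hr hr1 he => by
    rw [ee, Complex.exp_eq_one_iff] at he
    obtain ⟨n, hn⟩ := he
    have hrn : (r : ℂ) = n := mul_left_cancel₀ two_pi_I_ne (hn.trans (mul_comm _ _))
    have hrn' : r = n := by exact_mod_cast hrn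
    rw [hrn', ← Int.cast_abs] at hr1
    have hn0 : n = 0 := by
      have : |n| < 1 := by exact_mod_cast hr1
      exact abs_eq_zero.1 (le_antisymm (by omega) (abs_nonneg n))
    exact hr (by simp [hrn', hn0])
  have w1 : ee (θ s1) ≠ 1 := ne1 _ hσ (by linarith)
  have w2 : ee (-θ s1) ≠ 1 := ne1 _ (neg_ne_zero.2 hσ) (by rw [abs_neg]; linarith)
  have w3 : ee (-θ s1) ≠ ee (θ s1) := fun he => by
    refine ne1 (θ s1 + θ s1) (by intro h; exact hσ (by linarith))
      (lt_of_le_of_lt (abs_add_le _ _) (by linarith)) ?_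
    rw [ee_add]
    nth_rewrite 1 [← he]
    rw [← ee_add, neg_add_cancel, ee_zero]
  have hprod : ee (θ s1) * ee (-θ s1) = 1 := by rw [← ee_add, add_neg_cancel, ee_zero]
  rw [e21, neg_add, ee_add, ee_add]
  have e : (ee (θ s1) - 1) * (ee (-θ s1) * ee (-θ s1) - 1) -
      (ee (θ s1) * ee (θ s1) - 1) * (ee (-θ s1) - 1) =
      (ee (θ s1) - 1) * (ee (-θ s1) - 1) * (ee (-θ s1) - ee (θ s1)) := by ring
  rw [e]
  exact mul_ne_zero (mul_ne_zero (sub_ne_zero.2 w1) (sub_ne_zero.2 w2)) (sub_ne_zero.2 w3)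

variable {A : Type} [NonUnitalCStarAlgebra A]

theorem loopOp_eq {X Y X' P C P' C' : L →L[ℂ] L} (hP' : P' * P' = P') (hC' : C' * C' = C')
    (hPC : P * C = 0) (hPC' : P' * C' = 0) {h : ℝ}
    (hY : Y = (ee h - 1) • P + (ee (-h) - 1) • C)
    (hX' : X' = (ee h - 1) • P' + (ee (-h) - 1) • C') (hX : X + X' + X * X' = 0) :
    X + Y + X * Y = lpT P' P C' C h := by
  have f : ∀ {P C : L →L[ℂ] L}, P * C = 0 →
      (1 : L →L[ℂ] L) + ((ee h - 1) • P + (ee (-h) - 1) • C) = rot P h * rot C (-h) := by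
    intro P C hPC
    simp only [rot, mul_add, add_mul, one_mul, mul_one, smul_mul_assoc, mul_smul_comm, hPC,
      smul_zero, add_zero]
    abel
  have hY1 : 1 + Y = rot P h * rot C (-h) := hY ▸ f hPC
  have hX1 : 1 + X' = rot P' h * rot C' (-h) := hX' ▸ f hPC'
  have hi : (1 + X') * (rot C' h * rot P' (-h)) = 1 := by
    rw [hX1, mul_assoc, ← mul_assoc (rot C' (-h)), rot_neg_mul hC', one_mul, rot_mul_neg hP']
  have hl : (1 + X) * (1 + X') = 1 := by
    rw [add_mul, one_mul, mul_add, mul_one]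
    calc 1 + X' + (X + X * X') = 1 + (X + X' + X * X') := by abel
      _ = 1 := by rw [hX, add_zero]
  have hXe : 1 + X = rot C' h * rot P' (-h) := left_inv_eq_right_inv hl hi
  have hA : 1 + lpA C' P' P h h = rot C' h * (rot P' (-h) * rot P h) * rot C' (-h) := by
    rw [lpA, lp, mul_sub, mul_one, sub_mul, rot_mul_neg hC']
    abel
  have hB : 1 + lp C' C (-h) = rot C' h * rot C (-h) := by rw [lp, neg_neg]; abel
  have key : (1 + lpA C' P' P h h) * (1 + lp C' C (-h)) = (1 + X) * (1 + Y) := by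
    rw [hA, hB, hXe, hY1]
    simp only [mul_assoc]
    rw [← mul_assoc (rot C' (-h)) (rot C' h), rot_neg_mul hC', one_mul]
  have e : ∀ x y : L →L[ℂ] L, x + y + x * y = (1 + x) * (1 + y) - 1 := fun x y => by noncomm_ring
  rw [lpT, e, ← ContinuousLinearMap.mul_def, e, key]

end VP212.Pair
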