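import Vale.Agent.P212.Pair.Loop

/-!
P212, pairing: every path pairs with K-homology, and a loop of idempotents gives the index.
-/

open Set Module

namespace VP212.Pair

theorem amplMat_diag_apply {ι : Type} [Fintype ι] [DecidableEq ι] {H H' : Type}
    [NormedAddCommGroup H] [InnerProductSpace ℂ H] [NormedAddCommGroup H'] [InnerProductSpace ℂ H']
    (f : H →L[ℂ] H') (v : Ampl ι H) (i : ι) :
    amplMat (Matrix.diagonal fun _ => f) v i = f (v i) := by
  rw [amplMat_apply, Finset.sum_eq_single i (fun j _ hj => by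
    simp [Matrix.diagonal_apply_ne' _ hj]) (by simp)]
  simp

theorem amplMat_diag_conj {ι : Type} [Fintype ι] [DecidableEq ι] {A : Type} {H G : Type}
    [NormedAddCommGroup H] [InnerProductSpace ℂ H] [NormedAddCommGroup G] [InnerProductSpace ℂ G]
    (f : H →L[ℂ] G) (f' : G →L[ℂ] H) (g : A → (H →L[ℂ] H)) (g' : A → (G →L[ℂ] G))
    (h : ∀ a, g' a = f.comp ((g a).comp f')) (m : Matrix ι ι A) :
    amplMat (m.map g') = (amplMat (Matrix.diagonal fun _ => f)).comp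
      ((amplMat (m.map g)).comp (amplMat (Matrix.diagonal fun _ => f'))) := by
  refine amplMat_ext fun v i => ?_
  rw [ContinuousLinearMap.comp_apply, ContinuousLinearMap.comp_apply, amplMat_diag_apply,
    amplMat_apply, amplMat_apply, map_sum]
  refine Finset.sum_congr rfl fun j _ => ?_
  rw [Matrix.map_apply, Matrix.map_apply, h, ContinuousLinearMap.comp_apply,
    ContinuousLinearMap.comp_apply, amplMat_diag_apply]

theorem isCompact_diff {A : Type} [NonUnitalCStarAlgebra A] {H0 H1 : Type} [NormedAddCommGroup H0]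
    [InnerProductSpace ℂ H0] [CompleteSpace H0] [NormedAddCommGroup H1] [InnerProductSpace ℂ H1]
    [CompleteSpace H1] {ρ0 : A →⋆ₙₐ[ℂ] (H0 →L[ℂ] H0)} {ρ1 : A →⋆ₙₐ[ℂ] (H1 →L[ℂ] H1)}
    {W : H0 →L[ℂ] H1} {V : H1 →L[ℂ] H0} (h : IsMod ρ0 ρ1 W V) {ι : Type} [Fintype ι]
    (m1 m2 : Matrix ι ι A) {R S R' S' : Ampl ι (Gp H0 H1) →L[ℂ] Ampl ι (Gp H0 H1)}
    {u1 v1 u2 v2 : ℂ} (h1 : amplMat (m1.map (ta ρ0 W V)) = u1 • R + v1 • S)
    (h2 : amplMat (m2.map (ta ρ0 W V)) = u2 • R + v2 • S)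
    (h1' : amplMat (m1.map (sg (H0 := H0) ρ1)) = u1 • R' + v1 • S')
    (h2' : amplMat (m2.map (sg (H0 := H0) ρ1)) = u2 • R' + v2 • S')
    (hd : u1 * v2 - u2 * v1 ≠ 0) :
    IsCompactOperator (R - R') ∧ IsCompactOperator (S - S') := by
  have hsm : ∀ (l n : ℂ), IsCompactOperator ((l * u1 + n * u2) • R + (l * v1 + n * v2) • S -
      ((l * u1 + n * u2) • R' + (l * v1 + n * v2) • S')) := fun l n => by
    have := h.isCompact_amplMat_sub (l • m1 + n • m2)
    rw [Matrix.map_add _ (map_add _), Matrix.map_add _ (map_add _),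
      Matrix.map_smul _ l (fun a => ta_smul ρ0 W V l a), Matrix.map_smul _ n (fun a => ta_smul ρ0 W V n a),
      Matrix.map_smul _ l (fun a => sg_smul ρ1 l a), Matrix.map_smul _ n (fun a => sg_smul ρ1 n a),
      amplMat_add, amplMat_add, amplMat_smul, amplMat_smul, amplMat_smul, amplMat_smul,
      h1, h2, h1', h2'] at this
    convert this using 1
    refine congrArg _ ?_
    module
  constructor
  · have := hsm (v2 / (u1 * v2 - u2 * v1)) (-v1 / (u1 * v2 - u2 * v1))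
    rw [show v2 / (u1 * v2 - u2 * v1) * u1 + -v1 / (u1 * v2 - u2 * v1) * u2 = 1 by
        rw [div_mul_eq_mul_div, div_mul_eq_mul_div, ← add_div, div_eq_one_iff_eq hd]; ring,
      show v2 / (u1 * v2 - u2 * v1) * v1 + -v1 / (u1 * v2 - u2 * v1) * v2 = 0 by ring] at this
    convert this using 1
    refine congrArg _ ?_
    module
  · have := hsm (-u2 / (u1 * v2 - u2 * v1)) (u1 / (u1 * v2 - u2 * v1))
    rw [show -u2 / (u1 * v2 - u2 * v1) * u1 + u1 / (u1 * v2 - u2 * v1) * u2 = 0 by ring,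
      show -u2 / (u1 * v2 - u2 * v1) * v1 + u1 / (u1 * v2 - u2 * v1) * v2 = 1 by
        rw [div_mul_eq_mul_div, div_mul_eq_mul_div, ← add_div, div_eq_one_iff_eq hd]; ring] at this
    convert this using 1
    refine congrArg _ ?_
    module

variable {A : Type} [NonUnitalCStarAlgebra A] {Q : ℕ}

theorem hasInv_of_idem (hQ : 0 < Q) (p : QPath A Q) (M : FredMod A) {θ : ℝ → ℝ} (hθ : Continuous θ)
    (hθ0 : θ 0 = 0) {m kP kC : ℤ} (hm : θ 1 = m)
    {R S R' S' : Ampl (p.ι × Fin Q) (Gp M.H0.carrier M.H1.carrier) →L[ℂ]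
      Ampl (p.ι × Fin Q) (Gp M.H0.carrier M.H1.carrier)}
    (hR : R * R = R) (hS : S * S = S) (hR' : R' * R' = R') (hS' : S' * S' = S')
    (hRS : R * S = 0) (hRS' : R' * S' = 0)
    (hY : ∀ t ∈ Icc (0 : ℝ) 1, amplMat ((p.a t).map (ta M.ρ0 M.W M.V)) =
      (ee (θ t) - 1) • R + (ee (-θ t) - 1) • S)
    (hX : ∀ t ∈ Icc (0 : ℝ) 1, amplMat ((p.a t).map (sg (H0 := M.H0.carrier) M.ρ1)) =
      (ee (θ t) - 1) • R' + (ee (-θ t) - 1) • S')
    (kP' : HasIndexBetween R R' (1 : Ampl (p.ι × Fin Q) (Gp M.H0.carrier M.H1.carrier) →L[ℂ]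
      Ampl (p.ι × Fin Q) (Gp M.H0.carrier M.H1.carrier)) kP)
    (kC' : HasIndexBetween S S' (1 : Ampl (p.ι × Fin Q) (Gp M.H0.carrier M.H1.carrier) →L[ℂ]
      Ampl (p.ι × Fin Q) (Gp M.H0.carrier M.H1.carrier)) kC) :
    HasInv (slots p.ι Q (Gp M.H0.carrier M.H1.carrier)) (modK p M) (modC p M)
      ((m * (kP - kC) : ℤ) : ZMod Q) := by
  have hrel : ∀ t, p.b t + p.a t + p.b t * p.a t = 0 := fun t => by
    rw [add_comm (p.b t)]; exact p.inv_ba t
  have hop : ∀ t ∈ Icc (0 : ℝ) 1, modK p M t = lpT R' R S' S (θ t) := fun t ht =>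
    loopOp_eq hR' hS' hRS hRS' (hY t ht) (hX t ht)
      (amplMat_map_rel (sg (H0 := M.H0.carrier) M.ρ1) (hrel t))
  by_cases hz : ∀ t ∈ Icc (0 : ℝ) 1, θ t = 0
  · have hm0 : m = 0 := by
      have := hz 1 (right_mem_Icc.2 zero_le_one)
      rw [hm] at this; exact_mod_cast this
    have hk0 : ∀ t ∈ Icc (0 : ℝ) 1, modK p M t = 0 := fun t ht => by
      rw [hop t ht, hz t ht]
      simp [lpT, lpA, lp_zero]
    have hc0 : modC p M = 0 := eq_zero_of_endDiag hQ (by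
      have := endDiag_modK p M
      rwa [hk0 1 (right_mem_Icc.2 zero_le_one)] at this)
    rw [hm0, zero_mul, Int.cast_zero]
    exact hasInv_zero.congr (fun t ht => (hk0 t ht).symm) hc0.symm
  · push Not at hz
    obtain ⟨t0, ht0, hne⟩ := hz
    obtain ⟨s1, hs1, s2, hs2, hdet⟩ := exists_two_angles hθ hθ0 ht0 hne
    obtain ⟨hcP, hcC⟩ := isCompact_diff (isMod M) (p.a s1) (p.a s2)
      (hY s1 hs1) (hY s2 hs2) (hX s1 hs1) (hX s2 hs2) hdet
    have hc0 : modC p M = 0 := eq_zero_of_endDiag hQ (by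
      have := endDiag_modK p M
      rw [hop 1 (right_mem_Icc.2 zero_le_one), hm] at this
      have e : lpT R' R S' S (m : ℝ) = 0 := by
        rw [lpT, lpA, lp_int, show (-(m : ℝ)) = ((-m : ℤ) : ℝ) by push_cast; ring, lp_int]
        simp
      rwa [e] at this)
    have ht := hasInv_total (U := slots p.ι Q (Gp M.H0.carrier M.H1.carrier)) hQ hR' hR hS' hS hcP hcC
      kP' kC' hθ hθ0 hm
    exact ht.congr (fun t ht => (hop t ht).symm) hc0.symm

theorem hasInv_seesLoop (hQ : 0 < Q) (p : QPath A Q) (M : FredMod A) {θ : ℝ → ℝ} {m kP kC : ℤ}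
    {P0 C0 : Ampl (p.ι × Fin Q) M.H0.carrier →L[ℂ] Ampl (p.ι × Fin Q) M.H0.carrier}
    {P1 C1 : Ampl (p.ι × Fin Q) M.H1.carrier →L[ℂ] Ampl (p.ι × Fin Q) M.H1.carrier}
    (hs : SeesLoop p M θ P0 C0 P1 C1) (hm : θ 1 = m)
    (hkP : HasIndexBetween P0 P1 (amplMat (Matrix.diagonal fun _ => M.W)) kP)
    (hkC : HasIndexBetween C0 C1 (amplMat (Matrix.diagonal fun _ => M.W)) kC) :
    HasInv (slots p.ι Q (Gp M.H0.carrier M.H1.carrier)) (modK p M) (modC p M)
      ((m * (kP - kC) : ℤ) : ZMod Q) := by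
  obtain ⟨hθ, hθ0, hP0, hC0, hP1, hC1, hPC0, hCP0, hPC1, hCP1, hloop, -, -⟩ := hs
  let a0 : Ampl (p.ι × Fin Q) M.H0.carrier →L[ℂ] Ampl (p.ι × Fin Q) (Gp M.H0.carrier M.H1.carrier) :=
    amplMat (Matrix.diagonal fun _ => al M.W M.V)
  let a0' : Ampl (p.ι × Fin Q) (Gp M.H0.carrier M.H1.carrier) →L[ℂ] Ampl (p.ι × Fin Q) M.H0.carrier :=
    amplMat (Matrix.diagonal fun _ => al' M.W M.V)
  let a1 : Ampl (p.ι × Fin Q) M.H1.carrier →L[ℂ] Ampl (p.ι × Fin Q) (Gp M.H0.carrier M.H1.carrier) :=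
    amplMat (Matrix.diagonal fun _ => be)
  let a1' : Ampl (p.ι × Fin Q) (Gp M.H0.carrier M.H1.carrier) →L[ℂ] Ampl (p.ι × Fin Q) M.H1.carrier :=
    amplMat (Matrix.diagonal fun _ => be')
  have i0 : ∀ v, a0' (a0 v) = v := fun v => PiLp.ext fun i => by
    simp only [a0, a0', amplMat_diag_apply, al'_al]
  have i1 : ∀ v, a1' (a1 v) = v := fun v => PiLp.ext fun i => by
    simp only [a1, a1', amplMat_diag_apply, be'_be]
  have iW : ∀ v, a1' (a0 v) = amplMat (Matrix.diagonal fun _ => M.W) v := fun v => PiLp.ext fun i => by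
    simp only [a0, a1', amplMat_diag_apply, be'_al]
  set R := a0.comp (P0.comp a0') with hRd
  set S := a0.comp (C0.comp a0') with hSd
  set R' := a1.comp (P1.comp a1') with hR'd
  set S' := a1.comp (C1.comp a1') with hS'd
  have hR : R * R = R := by rw [hRd, idem_conj i0, hP0]
  have hS : S * S = S := by rw [hSd, idem_conj i0, hC0]
  have hR' : R' * R' = R' := by rw [hR'd, idem_conj i1, hP1]
  have hS' : S' * S' = S' := by rw [hS'd, idem_conj i1, hC1]
  have hRS : R * S = 0 := by rw [hRd, hSd, idem_conj i0, hPC0]; simp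
  have hRS' : R' * S' = 0 := by rw [hR'd, hS'd, idem_conj i1, hPC1]; simp
  have hY : ∀ t ∈ Icc (0 : ℝ) 1, amplMat ((p.a t).map (ta M.ρ0 M.W M.V)) =
      (ee (θ t) - 1) • R + (ee (-θ t) - 1) • S := fun t ht => by
    rw [amplMat_diag_conj (al M.W M.V) (al' M.W M.V) M.ρ0 _ (ta_apply M.ρ0 M.W M.V) (p.a t),
      (hloop t ht).1, ← ee_neg]
    refine ContinuousLinearMap.ext fun v => ?_
    simp [hRd, hSd, a0, a0', ee]
  have hX : ∀ t ∈ Icc (0 : ℝ) 1, amplMat ((p.a t).map (sg (H0 := M.H0.carrier) M.ρ1)) =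
      (ee (θ t) - 1) • R' + (ee (-θ t) - 1) • S' := fun t ht => by
    rw [amplMat_diag_conj be be' M.ρ1 _ (sg_apply (H0 := M.H0.carrier) M.ρ1) (p.a t),
      (hloop t ht).2, ← ee_neg]
    refine ContinuousLinearMap.ext fun v => ?_
    simp [hR'd, hS'd, a1, a1', ee]
  exact hasInv_of_idem hQ p M hθ hθ0 hm hR hS hR' hS' hRS hRS' hY hX
    (hasIndexBetween_conj i0 i1 iW hP0 hkP) (hasIndexBetween_conj i0 i1 iW hC0 hkC)

theorem pairing : PairingSpec := by
  intro A _ Q hQ p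
  refine ⟨pairHom p hQ, fun M θ m kP kC P0 C0 P1 C1 hs hm hkP hkC => ?_⟩
  rw [pairHom_kClass]
  exact modInv_eq p hQ (hasInv_seesLoop hQ p M hs hm hkP hkC)

end VP212.Pair
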