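import Vale.Agent.P212.Pair.Dil
import Vale.Agent.P212.Pair.InvMaps

/-!
P212, pairing: the path of compact perturbations attached to a path of matrices and a module.
-/

open Set

namespace VP212.Pair

variable {A : Type} [NonUnitalCStarAlgebra A]
  {H0 H1 : Type} [NormedAddCommGroup H0] [InnerProductSpace ℂ H0] [CompleteSpace H0]
  [NormedAddCommGroup H1] [InnerProductSpace ℂ H1] [CompleteSpace H1]

variable (ρ0 : A →⋆ₙₐ[ℂ] (H0 →L[ℂ] H0)) (ρ1 : A →⋆ₙₐ[ℂ] (H1 →L[ℂ] H1))
  (W : H0 →L[ℂ] H1) (V : H1 →L[ℂ] H0) {ι : Type} [Fintype ι]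

/-- The perturbation attached to a matrix `a` with quasi-inverse `b`. -/
noncomputable def Kmat (a b : Matrix ι ι A) : Ampl ι (Gp H0 H1) →L[ℂ] Ampl ι (Gp H0 H1) :=
  amplMat (b.map (sg ρ1)) + amplMat (a.map (ta ρ0 W V)) +
    amplMat (b.map (sg ρ1)) * amplMat (a.map (ta ρ0 W V))

/-- The quasi-inverse of `Kmat`. -/
noncomputable def Kmat' (a b : Matrix ι ι A) : Ampl ι (Gp H0 H1) →L[ℂ] Ampl ι (Gp H0 H1) :=
  amplMat (b.map (ta ρ0 W V)) + amplMat (a.map (sg ρ1)) +
    amplMat (b.map (ta ρ0 W V)) * amplMat (a.map (sg ρ1))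

theorem amplMat_map_rel {G : Type} [NormedAddCommGroup G] [InnerProductSpace ℂ G]
    (f : A →ₙ+* (G →L[ℂ] G)) {a b : Matrix ι ι A} (h : a + b + a * b = 0) :
    amplMat (a.map f) + amplMat (b.map f) + amplMat (a.map f) * amplMat (b.map f) = 0 := by
  rw [← amplMat_mul, ← amplMat_add, ← amplMat_add, ← Matrix.map_mul,
    ← Matrix.map_add f (map_add f), ← Matrix.map_add f (map_add f), h,
    Matrix.map_zero f (map_zero f), amplMat_zero]

theorem Kmat_inverse {a b : Matrix ι ι A} (hab : a + b + a * b = 0) (hba : b + a + b * a = 0) :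
    Kmat ρ0 ρ1 W V a b + Kmat' ρ0 ρ1 W V a b +
      (Kmat' ρ0 ρ1 W V a b).comp (Kmat ρ0 ρ1 W V a b) = 0 := by
  have hX := amplMat_map_rel (sg (H0 := H0) ρ1) hab
  have hY := amplMat_map_rel (ta ρ0 W V) hba
  simp only [Kmat, Kmat', ← ContinuousLinearMap.mul_def]
  set X := amplMat (b.map (sg (H0 := H0) ρ1))
  set X' := amplMat (a.map (sg (H0 := H0) ρ1))
  set Y := amplMat (a.map (ta ρ0 W V))
  set Y' := amplMat (b.map (ta ρ0 W V))
  have e : X + Y + X * Y + (Y' + X' + Y' * X') + (Y' + X' + Y' * X') * (X + Y + X * Y) =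
      (Y' + Y + Y' * Y) + ((X' + X + X' * X) + Y' * (X' + X + X' * X)) +
        ((X' + X + X' * X) * Y + Y' * (X' + X + X' * X) * Y) := by
    noncomm_ring
  rw [e, hX, hY]
  simp

theorem Kmat_zero : Kmat ρ0 ρ1 W V (0 : Matrix ι ι A) 0 = 0 := by
  have e1 : (0 : Matrix ι ι A).map (sg (H0 := H0) ρ1) = 0 := Matrix.map_zero _ (map_zero _)
  have e2 : (0 : Matrix ι ι A).map (ta ρ0 W V) = 0 := Matrix.map_zero _ (map_zero _)
  simp [Kmat, e1, e2, amplMat_zero]

variable {ρ0 ρ1 W V}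

theorem IsMod.isCompact_amplMat_sub (h : IsMod ρ0 ρ1 W V) (a : Matrix ι ι A) :
    IsCompactOperator (amplMat (a.map (ta ρ0 W V)) - amplMat (a.map (sg (H0 := H0) ρ1))) := by
  rw [← amplMat_sub]
  exact isCompact_amplMat fun i j => h.isCompact_sub (a i j)

theorem IsMod.isCompact_Kmat (h : IsMod ρ0 ρ1 W V) {a b : Matrix ι ι A}
    (hba : b + a + b * a = 0) : IsCompactOperator (Kmat ρ0 ρ1 W V a b) := by
  have hX := amplMat_map_rel (sg (H0 := H0) ρ1) hba
  set X := amplMat (b.map (sg (H0 := H0) ρ1)) with hXd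
  set X' := amplMat (a.map (sg (H0 := H0) ρ1)) with hX'd
  set Y := amplMat (a.map (ta ρ0 W V)) with hYd
  have hD : IsCompactOperator (Y - X') := h.isCompact_amplMat_sub a
  have e : Kmat ρ0 ρ1 W V a b = (Y - X') + X.comp (Y - X') + (X + X' + X * X') := by
    simp only [Kmat, ← hXd, ← hYd, ← ContinuousLinearMap.mul_def, mul_sub]
    abel
  rw [e, hX, add_zero]
  exact hD.add (hD.clm_comp X)

variable (ρ0 ρ1)

theorem continuous_Kmat {α : Type*} [TopologicalSpace α] {W : α → (H0 →L[ℂ] H1)}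
    {V : α → (H1 →L[ℂ] H0)} {a b : α → Matrix ι ι A} (hW : Continuous W) (hV : Continuous V)
    (ha : Continuous a) (hb : Continuous b) :
    Continuous (fun x => Kmat ρ0 ρ1 (W x) (V x) (a x) (b x)) ∧
      Continuous (fun x => Kmat' ρ0 ρ1 (W x) (V x) (a x) (b x)) := by
  have h1 : Continuous fun _ : α => (be : H1 →L[ℂ] Gp H0 H1) := continuous_const
  have h2 : Continuous fun _ : α => (ga : H0 →L[ℂ] Gp H0 H1) := continuous_const
  have h3 : Continuous fun _ : α => (be' : Gp H0 H1 →L[ℂ] H1) := continuous_const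
  have h4 : Continuous fun _ : α => (ga' : Gp H0 H1 →L[ℂ] H0) := continuous_const
  have hB : Continuous fun x => (1 : H0 →L[ℂ] H0) - (V x).comp (W x) :=
    (continuous_const (y := (1 : H0 →L[ℂ] H0))).sub (hV.clm_comp hW)
  have hA : Continuous fun x => (2 : ℂ) • V x - (V x).comp ((W x).comp (V x)) :=
    ((continuous_const (y := (2 : ℂ))).smul hV).sub (hV.clm_comp (hW.clm_comp hV))
  have hal : Continuous fun x => al (W x) (V x) := (h1.clm_comp hW).add (h2.clm_comp hB)
  have hal' : Continuous fun x => al' (W x) (V x) := (hA.clm_comp h3).add (hB.clm_comp h4)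
  have hs : ∀ {m : α → Matrix ι ι A}, Continuous m →
      Continuous fun x => amplMat ((m x).map (sg (H0 := H0) ρ1)) := fun hm =>
    continuous_amplMat.comp (continuous_matrix fun i j =>
      (continuous_sg ρ1).comp (hm.matrix_elem i j))
  have ht : ∀ {m : α → Matrix ι ι A}, Continuous m →
      Continuous fun x => amplMat ((m x).map (ta ρ0 (W x) (V x))) := fun hm =>
    continuous_amplMat.comp (continuous_matrix fun i j =>
      hal.clm_comp (((continuous_starHom ρ0).comp (hm.matrix_elem i j)).clm_comp hal'))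
  exact ⟨((hs hb).add (ht ha)).add ((hs hb).mul (ht ha)),
    ((ht hb).add (hs ha)).add ((ht hb).mul (hs ha))⟩

theorem endDiag_Kmat {Q : ℕ} (v v' : Matrix ι ι A) :
    EndDiag (slots ι Q (Gp H0 H1)) (Kmat ρ0 ρ1 W V (Matrix.blockDiagonal fun _ : Fin Q => v)
      (Matrix.blockDiagonal fun _ : Fin Q => v')) (Kmat ρ0 ρ1 W V v v') := by
  have e1 : (Matrix.blockDiagonal fun _ : Fin Q => v).map (ta ρ0 W V) =
      Matrix.blockDiagonal fun _ : Fin Q => v.map (ta ρ0 W V) :=
    Matrix.blockDiagonal_map _ _ (map_zero _)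
  have e2 : (Matrix.blockDiagonal fun _ : Fin Q => v').map (sg (H0 := H0) ρ1) =
      Matrix.blockDiagonal fun _ : Fin Q => v'.map (sg (H0 := H0) ρ1) :=
    Matrix.blockDiagonal_map _ _ (map_zero _)
  simp only [Kmat, e1, e2, ContinuousLinearMap.mul_def]
  exact ((endDiag_amplMat _).add (endDiag_amplMat _)).add ((endDiag_amplMat _).comp (endDiag_amplMat _))

end VP212.Pair
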