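import Mathlib

/-!
P212, pairing: winding numbers modulo `Q` of paths of nonzero numbers ending at a `Q`-th power.
-/

open Set Complex
open scoped unitInterval

namespace VP212.Pair

/-- `z` is the winding number modulo `Q` of the path `f` from `1` to `d ^ Q`. -/
def Wind (Q : ℕ) (f : ℝ → ℂ) (d : ℂ) (z : ZMod Q) : Prop :=
  ∃ (L : ℝ → ℂ) (ℓ : ℂ) (N : ℤ), ContinuousOn L (Icc 0 1) ∧
    (∀ t ∈ Icc (0 : ℝ) 1, exp (L t) = f t) ∧ exp ℓ = d ∧
    L 1 - L 0 - (Q : ℂ) * ℓ = (N : ℂ) * (2 * Real.pi * Complex.I) ∧ z = (N : ZMod Q)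

theorem two_pi_I_ne : (2 * (Real.pi : ℂ) * Complex.I) ≠ 0 := by
  simp [Real.pi_ne_zero]

/-- A continuous logarithm on the unit interval. -/
theorem exists_log {f : ℝ → ℂ} (hf : ContinuousOn f (Icc 0 1))
    (hne : ∀ t ∈ Icc (0 : ℝ) 1, f t ≠ 0) :
    ∃ L : ℝ → ℂ, ContinuousOn L (Icc 0 1) ∧ ∀ t ∈ Icc (0 : ℝ) 1, exp (L t) = f t := by
  let γ : C(I, {z : ℂ // z ≠ 0}) :=
    ⟨fun t => ⟨f t, hne t t.2⟩, (continuousOn_iff_continuous_domRestrict.1 hf).subtype_mk _⟩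
  have h0 : γ 0 = (⟨_, (log (f 0)).exp_ne_zero⟩ : {z : ℂ // z ≠ 0}) :=
    Subtype.ext (exp_log (hne 0 ⟨le_rfl, zero_le_one⟩)).symm
  let Γ := Complex.isCoveringMap_exp.liftPath γ (log (f 0)) h0
  refine ⟨IccExtend zero_le_one Γ, (Γ.continuous.Icc_extend').continuousOn, fun t ht => ?_⟩
  rw [IccExtend_of_mem _ _ ht]
  exact congrArg Subtype.val (congrFun (Complex.isCoveringMap_exp.liftPath_lifts γ _ h0) ⟨t, ht⟩)

theorem exists_wind {Q : ℕ} {f : ℝ → ℂ} {d : ℂ} (hf : ContinuousOn f (Icc 0 1))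
    (hne : ∀ t ∈ Icc (0 : ℝ) 1, f t ≠ 0) (h0 : f 0 = 1) (h1 : f 1 = d ^ Q) (hd : d ≠ 0) :
    ∃ z, Wind Q f d z := by
  obtain ⟨L, hL, hexp⟩ := exists_log hf hne
  have h : exp (L 1 - L 0 - (Q : ℂ) * log d) = 1 := by
    rw [exp_sub, exp_sub, hexp 1 ⟨zero_le_one, le_rfl⟩, hexp 0 ⟨le_rfl, zero_le_one⟩, h0, h1,
      exp_nat_mul, exp_log hd, div_one, div_self (pow_ne_zero _ hd)]
  obtain ⟨N, hN⟩ := exp_eq_one_iff.1 h
  exact ⟨N, L, log d, N, hL, hexp, exp_log hd, hN, rfl⟩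

theorem Wind.unique {Q : ℕ} {f : ℝ → ℂ} {d : ℂ} {z z' : ZMod Q} (h : Wind Q f d z)
    (h' : Wind Q f d z') : z = z' := by
  obtain ⟨L, ℓ, N, hL, hexp, hℓ, hN, rfl⟩ := h
  obtain ⟨L', ℓ', N', hL', hexp', hℓ', hN', rfl⟩ := h'
  have hL0 : exp (L' 0) = exp (L 0) := by
    rw [hexp 0 ⟨le_rfl, zero_le_one⟩, hexp' 0 ⟨le_rfl, zero_le_one⟩]
  obtain ⟨m, hm⟩ := exp_eq_exp_iff_exists_int.1 hL0
  obtain ⟨j, hj⟩ := exp_eq_exp_iff_exists_int.1 (hℓ'.trans hℓ.symm)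
  have heq : (fun t : I => L' t) = fun t : I => L t + m * (2 * Real.pi * Complex.I) := by
    refine Complex.isCoveringMap_exp.eq_of_comp_eq (continuousOn_iff_continuous_domRestrict.1 hL')
      ((continuousOn_iff_continuous_domRestrict.1 hL).add continuous_const) ?_ 0 (by simpa using hm)
    funext t
    apply Subtype.ext
    simp only [Function.comp_apply]
    rw [hexp' t t.2, exp_add, hexp t t.2, exp_int_mul_two_pi_mul_I, mul_one]
  have h1 := congrFun heq 1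
  simp only [Icc.coe_one] at h1
  rw [h1, hm, hj] at hN'
  have hNN : ((N' : ℂ) - ((N : ℂ) - (Q : ℂ) * j)) * (2 * Real.pi * Complex.I) = 0 := by
    linear_combination -hN' + hN
  have hN'' : (N' : ℂ) = ((N - Q * j : ℤ) : ℂ) := by
    push_cast
    linear_combination (mul_eq_zero.1 hNN).resolve_right two_pi_I_ne
  rw [Int.cast_inj.1 hN'']
  simp

theorem Wind.mul {Q : ℕ} {f g : ℝ → ℂ} {d e : ℂ} {z w : ZMod Q} (h : Wind Q f d z)
    (h' : Wind Q g e w) : Wind Q (fun t => f t * g t) (d * e) (z + w) := by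
  obtain ⟨L, ℓ, N, hL, hexp, hℓ, hN, rfl⟩ := h
  obtain ⟨L', ℓ', N', hL', hexp', hℓ', hN', rfl⟩ := h'
  refine ⟨fun t => L t + L' t, ℓ + ℓ', N + N', hL.add hL', fun t ht => ?_, ?_, ?_, by simp⟩
  · rw [exp_add, hexp t ht, hexp' t ht]
  · rw [exp_add, hℓ, hℓ']
  · push_cast
    linear_combination hN + hN'

theorem Wind.congr {Q : ℕ} {f g : ℝ → ℂ} {d e : ℂ} {z : ZMod Q} (h : Wind Q f d z)
    (hfg : ∀ t ∈ Icc (0 : ℝ) 1, f t = g t) (hde : d = e) : Wind Q g e z := by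
  obtain ⟨L, ℓ, N, hL, hexp, hℓ, hN, rfl⟩ := h
  exact ⟨L, ℓ, N, hL, fun t ht => (hexp t ht).trans (hfg t ht), hde ▸ hℓ, hN, rfl⟩

/-- The winding number is a homotopy invariant. -/
theorem Wind.homotopy {Q : ℕ} {F : ℝ → ℝ → ℂ} {d : ℝ → ℂ}
    (hF : ContinuousOn (fun p : ℝ × ℝ => F p.1 p.2) (Icc 0 1 ×ˢ Icc 0 1))
    (hne : ∀ s ∈ Icc (0 : ℝ) 1, ∀ t ∈ Icc (0 : ℝ) 1, F s t ≠ 0)
    (h0 : ∀ s ∈ Icc (0 : ℝ) 1, F s 0 = 1) (hd : ContinuousOn d (Icc 0 1))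
    (hdne : ∀ s ∈ Icc (0 : ℝ) 1, d s ≠ 0) (h1 : ∀ s ∈ Icc (0 : ℝ) 1, F s 1 = d s ^ Q)
    {z : ZMod Q} (h : Wind Q (F 0) (d 0) z) : Wind Q (F 1) (d 1) z := by
  obtain ⟨ℓ, hℓc, hℓ⟩ := exists_log hd hdne
  let H : C(I × I, {z : ℂ // z ≠ 0}) :=
    ⟨fun p => ⟨F p.2 p.1, hne _ p.2.2 _ p.1.2⟩, Continuous.subtype_mk
      (hF.comp_continuous (by fun_prop : Continuous fun p : I × I => ((p.2 : ℝ), (p.1 : ℝ)))
        fun p => ⟨p.2.2, p.1.2⟩) _⟩
  have hH0 : ∀ s : I, H (0, s) = (⟨exp ((ContinuousMap.const I (0 : ℂ)) s),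
      exp_ne_zero _⟩ : {z : ℂ // z ≠ 0}) := fun s => by
    apply Subtype.ext
    show F s 0 = exp 0
    rw [h0 s s.2, exp_zero]
  let G := Complex.isCoveringMap_exp.liftHomotopy H (ContinuousMap.const I 0) hH0
  have hG : ∀ t s : I, exp (G (t, s)) = F s t := fun t s =>
    congrArg Subtype.val
      (congrFun (Complex.isCoveringMap_exp.liftHomotopy_lifts H (ContinuousMap.const I 0) hH0) (t, s))
  have hG0 : ∀ s : I, G (0, s) = 0 := fun s =>
    Complex.isCoveringMap_exp.liftHomotopy_zero H (ContinuousMap.const I 0) hH0 s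
  let q : I → ℂ := fun s => (G (1, s) - G (0, s) - (Q : ℂ) * ℓ s) / (2 * Real.pi * Complex.I)
  have hq : ∀ s : I, ∃ N : ℤ, q s = N := fun s => by
    have he : exp (G (1, s) - G (0, s) - (Q : ℂ) * ℓ s) = 1 := by
      rw [hG0, sub_zero, exp_sub, exp_nat_mul, hG, hℓ s s.2]
      rw [Icc.coe_one, h1 s s.2, div_self (pow_ne_zero _ (hdne s s.2))]
    obtain ⟨N, hN⟩ := exp_eq_one_iff.1 he
    exact ⟨N, by show _ / _ = _; rw [hN, mul_div_cancel_right₀ _ two_pi_I_ne]⟩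
  choose N hN using hq
  have hqc : Continuous q := by
    refine Continuous.div_const (((G.continuous.comp (by fun_prop)).sub
      (G.continuous.comp (by fun_prop))).sub (continuous_const.mul ?_)) _
    exact continuousOn_iff_continuous_domRestrict.1 hℓc
  have hNc : Continuous N := by
    rw [Int.isClosedEmbedding_coe_real.isEmbedding.continuous_iff]
    refine (continuous_re.comp hqc).congr fun s => ?_
    simp [hN s]
  have hN01 : N 0 = N 1 := PreconnectedSpace.constant inferInstance hNc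
  have mk : ∀ s : I, Wind Q (F s) (d s) (N s) := fun s => by
    refine ⟨IccExtend zero_le_one (fun t : I => G (t, s)), ℓ s, N s,
      ((G.continuous.comp (by fun_prop : Continuous fun t : I => (t, s))).Icc_extend').continuousOn,
      fun t ht => ?_, hℓ s s.2, ?_, rfl⟩
    · rw [IccExtend_of_mem _ _ ht, hG]
    · rw [IccExtend_right, IccExtend_left]
      have := hN s
      rw [div_eq_iff two_pi_I_ne] at this
      exact this
  rw [h.unique (mk 0), hN01]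
  exact mk 1

end VP212.Pair
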